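import Vale.Agent.P216.V994.Pair
import Vale.Agent.P216.V775.HEx

/-!
# P216-V, V4 (algebra): the classes over the Koszul tower

`Pair.ks`: 775's Koszul system of a pair.  `Pair.yh₁`, `Pair.yh₂`: the closed elements of the
tower `X ⟨e⟩`; they are `Good` (775).
-/

open MvPolynomial Finset

namespace Vale.Agent.P216.V994

open Vale.Agent.P216.V706 Vale.Agent.P216.V609 Vale.Agent.P216.V775

universe u v w'

variable {k : Type w'} [Field k]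

namespace Pair

variable {X : CD.{v} k} (T : Pair X.C)

/-- The polynomials `Q_j`. -/
noncomputable abbrev Q : T.σ → MvPolynomial T.σ k := fun j => ∑ i, MvPolynomial.X i * T.Q1 j i

/-- The Koszul system. -/
noncomputable def ks : KS X T.w T.f T.Q where
  x j := T.B.x j
  hx := T.B.x_mem
  y := T.B.y
  hy := T.B.y_mem
  dy := T.B.dy
  dx := T.dx

theorem ks_map {Y : CD.{u} k} (φ : X.Hm Y) : T.ks.map φ = (T.map φ).ks (X := Y) := rfl

theorem qd [CharZero k] : QD T.w T.f T.Q T.Q1 :=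
  ⟨two_ne_zero, T.hw, T.f_pos, fun _ => rfl, T.wQ1⟩

/-- A Koszul family from a solution. -/
def kz [CharZero k] {u : T.σ → X.A} (h : SolOn T.ks T.Q1 univ u) : T.K :=
  Kz.ofEq T.hw u (fun j => h.mem j (mem_univ j)) (fun j => h.eq j (mem_univ j))

@[simp] theorem kz_u [CharZero k] {u : T.σ → X.A} (h : SolOn T.ks T.Q1 univ u) (j : T.σ) :
    (T.kz h).u j = u j := rfl

theorem solOn [CharZero k] (K : T.K) : SolOn T.ks T.Q1 univ K.u :=
  ⟨fun j _ => K.u_mem j, fun j _ => K.d_u j⟩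

variable [CharZero k] {Tw : Tw X} {ê : T.σ → Tw.top.A}

/-- The Koszul family of the tower. -/
noncomputable def tk (h : KTw T.Q1 T.ks ∅ 0 Tw ê) : (T.map Tw.inc).K :=
  (T.map Tw.inc).kz (X := Tw.top) (h.sol₀ T.qd)

@[simp] theorem tk_u (h : KTw T.Q1 T.ks ∅ 0 Tw ê) (j : T.σ) : (T.tk h).u j = ê j := rfl

/-- The first closed element. -/
noncomputable def yh₁ (h : KTw T.Q1 T.ks ∅ 0 Tw ê) : Tw.top.A := (T.map Tw.inc).b₁ (T.tk h)

/-- The second closed element. -/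
noncomputable def yh₂ (h : KTw T.Q1 T.ks ∅ 0 Tw ê) : Tw.top.A := (T.map Tw.inc).b₂ (T.tk h)

theorem yh₁_eq (h : KTw T.Q1 T.ks ∅ 0 Tw ê) :
    T.yh₁ h = Tw.inc.f T.z₁ - (T.tk h).prim T.p₁ := rfl

theorem yh₂_eq (h : KTw T.Q1 T.ks ∅ 0 Tw ê) :
    T.yh₂ h = Tw.inc.f T.z₂ - (T.tk h).prim T.p₂ := rfl

/-- Two families over the same base. -/
theorem sub_prim_mem_B {n : ℕ} {P : MvPolynomial T.σ k} (p : PD T.w T.f (n + 1) T.Q1 P)
    (K : T.K) {z : X.A} {Y : CD.{u} k} (φ φ' : X.Hm Y) (hz : φ.f z = φ'.f z)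
    (hx : ∀ j, φ.f (T.B.x j) = φ'.f (T.B.x j)) (hy : φ.f T.B.y = φ'.f T.B.y) :
    φ.f (z - K.prim p) - φ'.f (z - K.prim p) ∈ Y.C.B (2 * n + 1) := by
  set s : Kz (T.B.map φ) T.Q1 := K.map T.hw φ (fun _ => rfl) rfl with hs
  set s' : Kz (T.B.map φ) T.Q1 := K.map T.hw φ' (fun j => (hx j).symm) hy.symm with hs'
  have e1 : φ.f (K.prim p) = s.prim p := Kz.map_prim φ K s p rfl fun _ => rfl
  have e2 : φ'.f (K.prim p) = s'.prim p := Kz.map_prim φ' K s' p hy.symm fun _ => rfl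
  rw [map_sub, map_sub, e1, e2, hz]
  refine ⟨s'.F s p, s'.F_mem s p T.hw, ?_⟩
  rw [s'.d_F s p T.hw]
  abel

omit [CharZero k] in
/-- The elements vanish on a base without positive degrees. -/
theorem map_sub_prim_eq_zero {n : ℕ} {P : MvPolynomial T.σ k} (p : PD T.w T.f (n + 1) T.Q1 P)
    (K : T.K) {z : X.A} {Y : CD.{u} k} (φ : X.Hm Y) (hz : φ.f z = 0)
    (hu : ∀ j, φ.f (K.u j) = 0) : φ.f (z - K.prim p) = 0 := by
  set s : Kz (T.B.map φ) T.Q1 := K.map T.hw φ (fun _ => rfl) rfl with hs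
  have e1 : φ.f (K.prim p) = s.prim p := Kz.map_prim φ K s p rfl fun _ => rfl
  rw [map_sub, e1, hz, s.prim_zero p hu, sub_zero]

/-- **The first class is good.** -/
theorem good₁ (h : KTw T.Q1 T.ks ∅ 0 Tw ê) : Good Tw ê (T.yh₁ h) T.n₁ where
  mem := ((T.map Tw.inc).b₁_mem (T.tk h)).1
  closed := ((T.map Tw.inc).b₁_mem (T.tk h)).2
  two _ φ φ' hφ := (T.map Tw.inc).sub_prim_mem_B (X := Tw.top) T.p₁ (T.tk h) φ φ' (hφ _)
    (fun _ => hφ _) (hφ _)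
  van _ φ h0 h1 := (T.map Tw.inc).map_sub_prim_eq_zero (X := Tw.top) T.p₁ (T.tk h) φ
    (h0 _ _ T.z₁_mem) h1

/-- **The second class is good.** -/
theorem good₂ (h : KTw T.Q1 T.ks ∅ 0 Tw ê) : Good Tw ê (T.yh₂ h) T.n₂ where
  mem := ((T.map Tw.inc).b₂_mem (T.tk h)).1
  closed := ((T.map Tw.inc).b₂_mem (T.tk h)).2
  two _ φ φ' hφ := (T.map Tw.inc).sub_prim_mem_B (X := Tw.top) T.p₂ (T.tk h) φ φ' (hφ _)
    (fun _ => hφ _) (hφ _)
  van _ φ h0 h1 := (T.map Tw.inc).map_sub_prim_eq_zero (X := Tw.top) T.p₂ (T.tk h) φ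
    (h0 _ _ T.z₂_mem) h1

omit [CharZero k] in
/-- Base change. -/
theorem push {Y : CD.{u} k} (φ : X.Hm Y) (h : KTw T.Q1 T.ks ∅ 0 Tw ê) :
    KTw (T.map φ).Q1 (Pair.ks (X := Y) (T.map φ)) ∅ 0 (Tw.push φ)
      fun i => (Tw.map φ).f (ê i) := h.push₀ φ

/-- **Base change of the classes.** -/
theorem map_yh₁ {Y : CD.{u} k} (φ : X.Hm Y) (h : KTw T.Q1 T.ks ∅ 0 Tw ê) :
    (Tw.map φ).f (T.yh₁ h) = Pair.yh₁ (X := Y) (T.map φ) (T.push φ h) := by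
  rw [yh₁_eq, yh₁_eq, map_sub, Tw.map_inc]
  congr 1
  exact Kz.map_prim (Tw.map φ) (T.tk h) (Pair.tk (X := Y) (T.map φ) (T.push φ h)) T.p₁
    (Tw.map_inc φ _) fun _ => rfl

theorem map_yh₂ {Y : CD.{u} k} (φ : X.Hm Y) (h : KTw T.Q1 T.ks ∅ 0 Tw ê) :
    (Tw.map φ).f (T.yh₂ h) = Pair.yh₂ (X := Y) (T.map φ) (T.push φ h) := by
  rw [yh₂_eq, yh₂_eq, map_sub, Tw.map_inc]
  congr 1
  exact Kz.map_prim (Tw.map φ) (T.tk h) (Pair.tk (X := Y) (T.map φ) (T.push φ h)) T.p₂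
    (Tw.map_inc φ _) fun _ => rfl

end Pair

end Vale.Agent.P216.V994
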