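import Vale.Agent.P216.V775.GoodB
import Vale.Agent.P216.V994.Good

/-!
# P216-V, V4 (algebra): base change of the classes `PTw.y₁`, `PTw.y₂`
-/

open MvPolynomial Finset

namespace Vale.Agent.P216.V775

open Vale.Agent.P216.V706 Vale.Agent.P216.V609
open Vale.Agent.P216.V994 (Pair Kz Base PD WH pairOf OfTwo.prim_pd₁)

universe u v w'

variable {k : Type w'} [Field k] [CharZero k] {X : CD.{v} k} {P : Pair X.C} {T : Tw X}
  {ê : P.σ → T.top.A}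

theorem PTw.yh₁_eq (h : PTw P T ê) : P.yh₁ h = h.y₁ := rfl

theorem PTw.yh₂_eq (h : PTw P T ê) : P.yh₂ h = h.y₂ := rfl

omit [CharZero k] in
/-- Base change. -/
theorem PTw.push {Y : CD.{u} k} (φ : X.Hm Y) (h : PTw P T ê) :
    PTw (X := Y) (P.map φ) (T.push φ) fun i => (T.map φ).f (ê i) := h.push₀ φ

/-- **Base change of the classes.** -/
theorem PTw.map_y₁ {Y : CD.{u} k} (φ : X.Hm Y) (h : PTw P T ê) :
    (T.map φ).f h.y₁ = (PTw.push φ h).y₁ := P.map_yh₁ φ h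

theorem PTw.map_y₂ {Y : CD.{u} k} (φ : X.Hm Y) (h : PTw P T ê) :
    (T.map φ).f h.y₂ = (PTw.push φ h).y₂ := P.map_yh₂ φ h

/-- `y₁` if `P₁ = 0`. -/
theorem PTw.y₁_of_zero {f₂ : ℕ} {T₀ : Two (H285V.toDga (two_ne_zero (α := k)) X.C) f₂}
    {T : Tw X} {ê : T₀.σ → T.top.A} (h : PTw (pairOf T₀) T ê) (h0 : T₀.P = 0) :
    h.y₁ = T.inc.f T₀.y := by
  have h1 : h.Kh.prim (pairOf T₀).p₁ = 0 := OfTwo.prim_pd₁ T₀ h.Kh h0
  show T.inc.f (pairOf T₀).z₁ - h.Kh.prim (pairOf T₀).p₁ = _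
  rw [h1, sub_zero]
  rfl

end Vale.Agent.P216.V775
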