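import Vale.Agent.P216.V994.PI
import Vale.Agent.P216.V670.Push

/-!
# P216-V, F-INST: the plain system of the paths with a fixed end point (670's `PSys`)
-/

set_option linter.all false

open Set BoundedContinuousFunction

namespace Vale.Agent.P216.V994

open Vale.Agent.P231.Fm Vale.Agent.P231.WA Vale.Agent.P216.V1 Vale.Agent.P216.H923G
open Vale.Agent.P216.H929V Vale.Agent.P216.V609 Vale.Agent.P216.H285V Vale.Agent.P216.H961

noncomputable section

/-- **The plain system.** -/
def plain {M : Type} [MetricSpace M] (b : M) : V670.PSys.{0, 1, 1, 1, 0} ℝ Sc where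
  B i := Form (DM (univ : Set M) i.v)
  C i := PI.C M i
  β i j h := PI.be M h
  W t i := HT (id : M → M) PI.e₀ (H456.PF b t) univ i.v
  D t i := PI.D b t i
  r s t i j h h' := PI.r b h h'
  φ t i := PI.ph b t i
  L t i := PI.L b t i
  Q t i := HT (id : M → M) PI.e₀ (PS.P b b t) {b} i.v
  O t i := PI.O b t i
  σ s t i j h h' := PI.sg b h h'
  rO t i := PI.rO b t i
  β_β i j l h h' a := PI.be_be h h' a
  r_r s t u i j l h h₁ h' h₁' w := PI.r_r b h h' h₁ h₁' w
  r_φ s t i j h h' a := PI.r_ph b h h' a
  r_L s t i j h h' n w hw := PI.r_L b h h' hw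
  rO_r s t i j h h' w := PI.rO_r b h h' w
  fil t i := PI.fil b t i
  rO_L t i q w hw hd := PI.hO b hw hd

end

end Vale.Agent.P216.V994
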