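import Vale.Agent.P216.V994.Map
import Vale.Agent.P216.H285V.Colim

/-!
# P216-V, V4 (algebra): the two odd generators

`Pair D`: a base (`x_j`, `y`), the polynomials `Q_ji` and, for `i = 1, 2`, `z_i` with
`d z_i = P_i(x)` and the polynomial data.  `pairOf`: from 706's `Two`; `y = y₁` if `P₁ = 0`
and `y = 0` else.
-/

open MvPolynomial Finset

namespace Vale.Agent.P216.V994

open Vale.Agent.P216.V706 Vale.Agent.P216.V609

/-- The data for both odd generators. -/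
structure Pair {k A : Type*} [Field k] [Ring A] [Algebra k A] (D : Cdga k A) where
  σ : Type
  [fin : Fintype σ]
  [dec : DecidableEq σ]
  w : σ → ℕ
  hw : ∀ j, 1 ≤ w j
  f : ℕ
  f_pos : 1 ≤ f
  B : Base D w f
  Q1 : σ → σ → MvPolynomial σ k
  wQ1 : ∀ j i, WH w (w i + f) (w j) (Q1 j i)
  dx : ∀ j, D.d (B.x j) = B.y * ev B.x (∑ i, X i * Q1 j i)
  n₁ : ℕ
  n₂ : ℕ
  n₁_pos : 1 ≤ n₁
  n_le : n₁ ≤ n₂
  P₁ : MvPolynomial σ k
  P₂ : MvPolynomial σ k
  z₁ : A
  z₁_mem : z₁ ∈ D.deg (2 * n₁ + 1)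
  dz₁ : D.d z₁ = ev B.x P₁
  z₂ : A
  z₂_mem : z₂ ∈ D.deg (2 * n₂ + 1)
  dz₂ : D.d z₂ = ev B.x P₂
  p₁ : PD w f (n₁ + 1) Q1 P₁
  p₂ : PD w f (n₂ + 1) Q1 P₂

attribute [instance] Pair.fin Pair.dec

section

variable {σ : Type} {k : Type*} [Field k] {w : σ → ℕ} {f : ℕ}

theorem lt_of_WH (hf : 1 ≤ f) {j i : σ} {F : MvPolynomial σ k} (h : WH w (w i + f) (w j) F)
    (h0 : F ≠ 0) : w i < w j := by
  obtain ⟨s, hs⟩ := ne_zero_iff.1 h0
  have := h s hs
  omega

theorem mkDerivation_apply [Fintype σ] [DecidableEq σ] (Q : σ → MvPolynomial σ k)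
    (F : MvPolynomial σ k) : mkDerivation k Q F = ∑ j, pderiv j F * Q j := by
  induction F using MvPolynomial.induction_on with
  | C a =>
    rw [derivation_C]
    exact (sum_eq_zero fun j _ => by rw [pderiv_C, zero_mul]).symm
  | add p q hp hq =>
    rw [map_add, hp, hq, ← sum_add_distrib]
    exact sum_congr rfl fun j _ => by rw [map_add, add_mul]
  | mul_X p i hp =>
    rw [Derivation.leibniz, mkDerivation_X, hp, smul_eq_mul, smul_eq_mul, mul_sum]
    have e : ∀ j, pderiv j (p * X i) * Q j =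
        X i * (pderiv j p * Q j) + if j = i then p * Q i else 0 := by
      intro j
      rw [pderiv_mul, pderiv_X]
      by_cases h : j = i
      · subst h
        rw [Pi.single_eq_same, if_pos rfl]
        ring
      · rw [if_neg h, Pi.single_eq_of_ne (Ne.symm h)]
        ring
    rw [sum_congr rfl fun j _ => e j, sum_add_distrib, sum_ite_eq' univ i]
    simp [add_comm]

/-- The zero data for `P = 0`. -/
noncomputable def PD.ofZero [Fintype σ] {N : ℕ} {Q1 : σ → σ → MvPolynomial σ k}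
    {P : MvPolynomial σ k} (wQ1 : ∀ j i, WH w (w i + f) (w j) (Q1 j i)) (h : P = 0) :
    PD w f N Q1 P := h ▸ PD.zero wQ1

theorem prim_ofZero [Fintype σ] {A : Type*} [Ring A] [Algebra k A] {D : Cdga k A}
    {B : Base D w f} {N : ℕ} {Q1 : σ → σ → MvPolynomial σ k}
    {P : MvPolynomial σ k} (wQ1 : ∀ j i, WH w (w i + f) (w j) (Q1 j i)) (h : P = 0)
    (K : Kz B Q1) : K.prim (PD.ofZero wQ1 h : PD w f N Q1 P) = 0 := by
  subst h
  exact K.prim_PD_zero wQ1

theorem constantCoeff_of_hom {F : MvPolynomial σ k} {n : ℕ} (h : IsWeightedHomogeneous w F n)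
    (hn : n ≠ 0) : constantCoeff F = 0 := by
  by_contra h0
  rw [constantCoeff_eq] at h0
  have := h h0
  rw [map_zero] at this
  exact hn this.symm

end

theorem Pair.lt {k A : Type*} [Field k] [Ring A] [Algebra k A] {D : Cdga k A} (T : Pair D)
    (j i : T.σ) (h : T.Q1 j i ≠ 0) : T.w i < T.w j := lt_of_WH T.f_pos (T.wQ1 j i) h

namespace OfTwo

variable {k A : Type*} [Field k] [CharZero k] [Ring A] [Algebra k A] {D : Cdga k A} {f₂ : ℕ}
  (T : Two (H285V.toDga (two_ne_zero (α := k)) D) f₂)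

open Classical in
/-- The closed odd element. -/
noncomputable def y₀ : A := if T.P = 0 then T.y else 0

theorem y₀_mem : y₀ T ∈ D.deg (2 * T.f + 1) := by
  rw [y₀]
  split_ifs
  · exact T.y_mem
  · exact Submodule.zero_mem _

theorem d_y₀ : D.d (y₀ T) = 0 := by
  rw [y₀]
  split_ifs with h
  · have : D.d T.y = ev T.x T.P := T.d_y
    rw [this, h, map_zero]
  · exact map_zero _

/-- The base. -/
noncomputable def base : Base D T.w T.f where
  x := T.x
  x_mem := T.x_mem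
  y := y₀ T
  y_mem := y₀_mem T
  dy := d_y₀ T

theorem d_x (j : T.σ) : D.d (T.x j) = y₀ T * ev T.x (T.Q j) := by
  have h : D.d (T.x j) = T.y * ev T.x (T.Q j) := T.d_x j
  rw [h, y₀]
  split_ifs with h1
  · rfl
  · rw [T.PQ.resolve_left h1 j, map_zero, mul_zero, mul_zero]

theorem exQ1 : ∃ Q1 : T.σ → T.σ → MvPolynomial T.σ k, (∀ j, T.Q j = ∑ i, X i * Q1 j i) ∧
    ∀ j i, WH T.w (T.w i + T.f) (T.w j) (Q1 j i) := by
  refine exists_Q1 (fun j => ?_) fun j => ?_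
  · by_cases h : T.w j ≤ T.f
    · rw [T.Q_zero j h]
      exact WH.zero
    · exact (WH_of_hom (T.Q_hom j)).congr (by omega)
  · by_cases h : T.w j ≤ T.f
    · rw [T.Q_zero j h, map_zero]
    · exact constantCoeff_of_hom (T.Q_hom j) (by omega)

/-- The division of the `Q_j`. -/
noncomputable def Q1 : T.σ → T.σ → MvPolynomial T.σ k := (exQ1 T).choose

theorem hQ (j : T.σ) : T.Q j = ∑ i, X i * Q1 T j i := (exQ1 T).choose_spec.1 j

theorem wQ1 (j i : T.σ) : WH T.w (T.w i + T.f) (T.w j) (Q1 T j i) := (exQ1 T).choose_spec.2 j i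

theorem exP₁ : Nonempty (PD T.w T.f (T.f + 1) (Q1 T) T.P) := by
  refine exists_PD (wQ1 T) (WH_of_hom T.P_hom) (constantCoeff_of_hom T.P_hom (by omega))
    T.P_lin ?_
  rcases T.PQ with h | h
  · exact sum_eq_zero fun j _ => by rw [h, map_zero, zero_mul]
  · exact sum_eq_zero fun j _ => by rw [← hQ, h j, mul_zero]

theorem exP₂ : Nonempty (PD T.w T.f (f₂ + 1) (Q1 T) T.P₂) := by
  refine exists_PD (wQ1 T) (WH_of_hom T.P₂_hom) (constantCoeff_of_hom T.P₂_hom (by omega))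
    (fun j => ?_) ?_
  · by_contra h
    have h1 := T.P₂_hom h
    rw [Finsupp.weight_single, one_smul] at h1
    have h2 := T.w_le j
    omega
  · have h := T.P₂_d
    rw [mkDerivation_apply] at h
    rw [← h]
    exact sum_congr rfl fun j _ => by rw [← hQ]

open Classical in
/-- The data for `P₁`; zero if `P₁ = 0`. -/
noncomputable def pd₁ : PD T.w T.f (T.f + 1) (Q1 T) T.P :=
  if h : T.P = 0 then PD.ofZero (wQ1 T) h else (exP₁ T).some

theorem prim_pd₁ {A' : Type*} [Ring A'] [Algebra k A'] {D' : Cdga k A'} {B : Base D' T.w T.f}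
    (K : Kz B (Q1 T)) (h : T.P = 0) : K.prim (pd₁ T) = 0 := by
  rw [pd₁, dif_pos h]
  exact prim_ofZero _ h K

/-- The data for `P₂`. -/
noncomputable def pd₂ : PD T.w T.f (f₂ + 1) (Q1 T) T.P₂ := (exP₂ T).some

end OfTwo

/-- **The pair of 706's `Two`.** -/
noncomputable def pairOf {k A : Type*} [Field k] [CharZero k] [Ring A] [Algebra k A]
    {D : Cdga k A} {f₂ : ℕ} (T : Two (H285V.toDga (two_ne_zero (α := k)) D) f₂) : Pair D where
  σ := T.σ
  w := T.w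
  hw := T.w_pos
  f := T.f
  f_pos := T.f_pos
  B := OfTwo.base T
  Q1 := OfTwo.Q1 T
  wQ1 := OfTwo.wQ1 T
  dx j := by
    rw [← OfTwo.hQ]
    exact OfTwo.d_x T j
  n₁ := T.f
  n₂ := f₂
  n₁_pos := T.f_pos
  n_le := T.f_le
  P₁ := T.P
  P₂ := T.P₂
  z₁ := T.y
  z₁_mem := T.y_mem
  dz₁ := T.d_y
  z₂ := T.y₂
  z₂_mem := T.y₂_mem
  dz₂ := T.d_y₂
  p₁ := OfTwo.pd₁ T
  p₂ := OfTwo.pd₂ T

namespace Pair

variable {k A : Type*} [Field k] [CharZero k] [Ring A] [Algebra k A] {D : Cdga k A} (T : Pair D)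
  {A' : Type*} [Ring A'] [Algebra k A'] {D' : Cdga k A'} (φ : Cdga.Hom D D')

/-- The image of a pair. -/
noncomputable def map : Pair D' where
  σ := T.σ
  w := T.w
  hw := T.hw
  f := T.f
  f_pos := T.f_pos
  B := T.B.map φ
  Q1 := T.Q1
  wQ1 := T.wQ1
  dx j := by
    rw [T.B.map_ev, T.B.map_x, ← φ.d, T.dx, map_mul, T.B.map_y]
  n₁ := T.n₁
  n₂ := T.n₂
  n₁_pos := T.n₁_pos
  n_le := T.n_le
  P₁ := T.P₁
  P₂ := T.P₂
  z₁ := φ.f T.z₁
  z₁_mem := φ.deg T.z₁_mem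
  dz₁ := by rw [T.B.map_ev, ← φ.d, T.dz₁]
  z₂ := φ.f T.z₂
  z₂_mem := φ.deg T.z₂_mem
  dz₂ := by rw [T.B.map_ev, ← φ.d, T.dz₂]
  p₁ := T.p₁
  p₂ := T.p₂

/-- The Koszul families of a pair. -/
abbrev K : Type _ := Kz T.B T.Q1

/-- The first class. -/
noncomputable def b₁ (s : T.K) : A := T.z₁ - s.prim T.p₁

/-- The second class. -/
noncomputable def b₂ (s : T.K) : A := T.z₂ - s.prim T.p₂

theorem b₁_mem (s : T.K) : T.b₁ s ∈ D.Z (2 * T.n₁ + 1) := s.sub_prim_mem_Z _ T.hw T.z₁_mem T.dz₁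

theorem b₂_mem (s : T.K) : T.b₂ s ∈ D.Z (2 * T.n₂ + 1) := s.sub_prim_mem_Z _ T.hw T.z₂_mem T.dz₂

/-- **The difference of the classes of two families is exact.** -/
theorem d_F₁ (s s' : T.K) : D.d (s.F s' T.p₁) = T.b₁ s' - T.b₁ s := by
  rw [s.d_F s' T.p₁ T.hw, b₁, b₁]
  abel

theorem d_F₂ (s s' : T.K) : D.d (s.F s' T.p₂) = T.b₂ s' - T.b₂ s := by
  rw [s.d_F s' T.p₂ T.hw, b₂, b₂]
  abel

/-- The image of a family. -/
noncomputable def mapK (s : T.K) : (T.map φ).K := s.map T.hw φ (fun _ => rfl) rfl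

omit [CharZero k] in
theorem map_b₁ (s : T.K) (t : (T.map φ).K) (h : ∀ j, φ.f (s.u j) = t.u j) :
    φ.f (T.b₁ s) = (T.map φ).b₁ t := by
  rw [b₁, b₁, map_sub, Kz.map_prim φ s t T.p₁ rfl h]
  rfl

omit [CharZero k] in
theorem map_b₂ (s : T.K) (t : (T.map φ).K) (h : ∀ j, φ.f (s.u j) = t.u j) :
    φ.f (T.b₂ s) = (T.map φ).b₂ t := by
  rw [b₂, b₂, map_sub, Kz.map_prim φ s t T.p₂ rfl h]
  rfl

end Pair

end Vale.Agent.P216.V994
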