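import Vale.Agent.P216.V994.Pd

/-!
# P216-V, V4 (algebra): primitives of `P(x)`

`Base`: `x_j` even, `y` odd closed.  `Kz`: odd `u_j` with `d u_j = x_j + y ∑ u_i Q_ji(du)`.
`prim = ∑ u_j P_j(du) - y U(u)`.

* `Kz.d_prim`: `d prim = P(x)`;
* `Kz.d_F` (`Diff.lean`): for two solutions over the same `x`, `y`: `prim - prim' = d F`.
-/

open MvPolynomial Finset

namespace Vale.Agent.P216.V994

open Vale.Agent.P216.V706 Vale.Agent.P216.V609

variable {σ : Type} [Fintype σ] [DecidableEq σ] {k A : Type*} [Field k] [Ring A] [Algebra k A]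

/-- `∑ a_i b_l R_il(c)` -/
noncomputable def BB (c : σ → Subalgebra.center k A) (a b : σ → A)
    (R : σ → σ → MvPolynomial σ k) : A :=
  ∑ i, ∑ l, a i * b l * ev c (R i l)

section BB

variable {c : σ → Subalgebra.center k A} {a a' b b' : σ → A} {R R' : σ → σ → MvPolynomial σ k}

omit [DecidableEq σ] in
theorem BB_add_left : BB c (fun i => a i + a' i) b R = BB c a b R + BB c a' b R := by
  unfold BB
  rw [← sum_add_distrib]
  refine sum_congr rfl fun i _ => ?_
  rw [← sum_add_distrib]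
  exact sum_congr rfl fun l _ => by rw [add_mul, add_mul]

omit [DecidableEq σ] in
theorem BB_add_right : BB c a (fun i => b i + b' i) R = BB c a b R + BB c a b' R := by
  unfold BB
  rw [← sum_add_distrib]
  refine sum_congr rfl fun i _ => ?_
  rw [← sum_add_distrib]
  exact sum_congr rfl fun l _ => by rw [mul_add, add_mul]

omit [DecidableEq σ] in
theorem BB_add : BB c a b (fun i l => R i l + R' i l) = BB c a b R + BB c a b R' := by
  unfold BB
  rw [← sum_add_distrib]
  refine sum_congr rfl fun i _ => ?_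
  rw [← sum_add_distrib]
  exact sum_congr rfl fun l _ => by rw [map_add, mul_add]

omit [DecidableEq σ] in
theorem BB_neg : BB c a b (fun i l => -R i l) = -BB c a b R := by
  unfold BB
  rw [← sum_neg_distrib]
  refine sum_congr rfl fun i _ => ?_
  rw [← sum_neg_distrib]
  exact sum_congr rfl fun l _ => by rw [map_neg, mul_neg]

omit [DecidableEq σ] in
theorem BB_swap (D : Cdga k A) (ha : ∀ i, a i ∈ Od D) (hb : ∀ i, b i ∈ Od D) :
    BB c a b R = -BB c b a fun i l => R l i := by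
  unfold BB
  rw [sum_comm, ← sum_neg_distrib]
  refine sum_congr rfl fun i _ => ?_
  rw [← sum_neg_distrib]
  exact sum_congr rfl fun l _ => by rw [odd_comm (ha l) (hb i), neg_mul]

omit [DecidableEq σ] in
theorem BB_anti (D : Cdga k A) (ha : ∀ i, a i ∈ Od D) (hb : ∀ i, b i ∈ Od D)
    (hR : ∀ i l, R l i = -R i l) : BB c a b R = BB c b a R := by
  rw [BB_swap D ha hb]
  have : (fun i l => R l i) = fun i l => -R i l := by
    funext i l
    exact hR i l
  rw [this, BB_neg, neg_neg]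

omit [DecidableEq σ] in
/-- the second argument is a combination -/
theorem BB_comb {R1 R2 : σ → σ → MvPolynomial σ k} :
    ∑ j, ∑ m, a j * (∑ l, b l * ev c (R1 m l)) * ev c (R2 j m) =
      BB c a b fun j l => ∑ m, R2 j m * R1 m l := by
  unfold BB
  refine sum_congr rfl fun j _ => ?_
  have e : ∀ m, a j * (∑ l, b l * ev c (R1 m l)) * ev c (R2 j m) =
      ∑ l, a j * b l * ev c (R2 j m * R1 m l) := by
    intro m
    rw [mul_sum, sum_mul]
    refine sum_congr rfl fun l _ => ?_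
    rw [map_mul, ev_comm c (R2 j m) (ev c (R1 m l))]
    simp only [mul_assoc]
  rw [sum_congr rfl fun m _ => e m, sum_comm]
  exact sum_congr rfl fun l _ => by rw [map_sum, mul_sum]

end BB

/-- The base: `x_j` even, `y` odd and closed. -/
structure Base (D : Cdga k A) (w : σ → ℕ) (f : ℕ) where
  x : σ → Subalgebra.center k A
  x_mem : ∀ j, (x j : A) ∈ D.deg (2 * w j)
  y : A
  y_mem : y ∈ D.deg (2 * f + 1)
  dy : D.d y = 0

/-- The solutions of `d u_j = x_j + y ∑ u_i Q_ji(du)`. -/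
structure Kz {D : Cdga k A} {w : σ → ℕ} {f : ℕ} (B : Base D w f)
    (Q1 : σ → σ → MvPolynomial σ k) where
  u : σ → A
  u_mem : ∀ j, u j ∈ D.deg (2 * w j - 1)
  c : σ → Subalgebra.center k A
  hc : ∀ j, (c j : A) = D.d (u j)
  eq : ∀ j, (c j : A) = B.x j + B.y * ∑ i, u i * ev c (Q1 j i)

variable {D : Cdga k A} {w : σ → ℕ} {f N : ℕ}

omit [Fintype σ] [DecidableEq σ] in
theorem Base.od_y (B : Base D w f) : B.y ∈ Od D := mem_Od B.y_mem

namespace Kz

variable {B : Base D w f} {Q1 : σ → σ → MvPolynomial σ k} {P : MvPolynomial σ k}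
  (s s' : Kz B Q1) (p : PD w f N Q1 P) (hw : ∀ j, 1 ≤ w j)

include hw in
omit [DecidableEq σ] in
theorem od_u (j : σ) : s.u j ∈ Od D := by
  have := s.u_mem j
  rw [show 2 * w j - 1 = 2 * (w j - 1) + 1 by have := hw j; omega] at this
  exact mem_Od this

include hw in
omit [DecidableEq σ] in
theorem c_mem (j : σ) : (s.c j : A) ∈ D.deg (2 * w j) := by
  rw [s.hc j]
  have := D.d_mem (s.u_mem j)
  rwa [show 2 * w j - 1 + 1 = 2 * w j by have := hw j; omega] at this

include hw in
omit [DecidableEq σ] in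
theorem ev_c (j : σ) : (s.c j : A) ∈ Ev D := mem_Ev (s.c_mem hw j)

omit [DecidableEq σ] in
theorem d_c (j : σ) : D.d (s.c j) = 0 := by rw [s.hc j, D.d_d]

include hw in
theorem d_evc (F : MvPolynomial σ k) : D.d (ev s.c F) = 0 := by
  rw [Vale.Agent.P216.V994.d_ev (s.ev_c hw)]
  exact sum_eq_zero fun j _ => by rw [s.d_c, mul_zero]

variable [CharZero k]

omit [DecidableEq σ] in
theorem y_c (j : σ) : B.y * s.c j = B.y * B.x j := by
  rw [s.eq j, mul_add, ← mul_assoc, odd_sq B.od_y, zero_mul, add_zero]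

omit [DecidableEq σ] in
theorem y_ev (F : MvPolynomial σ k) : B.y * ev s.c F = B.y * ev B.x F :=
  mul_ev_congr s.y_c F

omit [DecidableEq σ] in
/-- `y` times a term with a factor `F(x)` -/
theorem y_mul_ev (a : A) (F : MvPolynomial σ k) :
    B.y * (a * ev s.c F) = B.y * (a * ev B.x F) := by
  rw [← ev_comm, ← ev_comm, ← mul_assoc, ← mul_assoc, s.y_ev]

include hw in
omit [CharZero k] in
theorem d_uev (j : σ) (F : MvPolynomial σ k) :
    D.d (s.u j * ev s.c F) = ev s.c (X j * F) := by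
  rw [D.leib, s.d_evc hw, mul_zero, add_zero, ← s.hc, map_mul, ev_X]

include hw in
omit [CharZero k] in
theorem d_sum_uev (F : σ → MvPolynomial σ k) :
    D.d (∑ j, s.u j * ev s.c (F j)) = ev s.c (∑ j, X j * F j) := by
  rw [map_sum, map_sum]
  exact sum_congr rfl fun j _ => s.d_uev hw j _

include hw in
omit [CharZero k] in
theorem d_uuev (i l : σ) (F : MvPolynomial σ k) : D.d (s.u i * s.u l * ev s.c F) =
    s.u l * ev s.c (X i * F) - s.u i * ev s.c (X l * F) := by
  rw [D.leib, s.d_evc hw, mul_zero, add_zero, D.leib, ← s.hc, ← s.hc, sg_odd (s.od_u hw i),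
    map_mul, map_mul, ev_X, ev_X, add_mul, neg_mul, neg_mul, ← sub_eq_add_neg]
  congr 1
  · rw [← Subalgebra.mem_center_iff.1 (s.c i).2 (s.u l), mul_assoc]
  · rw [mul_assoc]

include hw in
omit [CharZero k] in
/-- `d` of `∑ u_i u_l T_il(c)`, `T` antisymmetric -/
theorem d_BB {T : σ → σ → MvPolynomial σ k} (hT : ∀ i l, T l i = -T i l) :
    D.d (BB s.c s.u s.u T) = -((2 : k) • ∑ i, s.u i * ev s.c (∑ l, X l * T i l)) := by
  have e1 : D.d (BB s.c s.u s.u T) = ∑ i, ∑ l, s.u l * ev s.c (X i * T i l) -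
      ∑ i, ∑ l, s.u i * ev s.c (X l * T i l) := by
    unfold BB
    rw [map_sum, ← sum_sub_distrib]
    refine sum_congr rfl fun i _ => ?_
    rw [map_sum, ← sum_sub_distrib]
    exact sum_congr rfl fun l _ => s.d_uuev hw i l _
  have e2 : ∑ i, ∑ l, s.u l * ev s.c (X i * T i l) =
      -∑ i, ∑ l, s.u i * ev s.c (X l * T i l) := by
    rw [sum_comm, ← sum_neg_distrib]
    refine sum_congr rfl fun i _ => ?_
    rw [← sum_neg_distrib]
    refine sum_congr rfl fun l _ => ?_
    rw [hT i l, mul_neg, map_neg, mul_neg]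
  have e3 : ∑ i, s.u i * ev s.c (∑ l, X l * T i l) =
      ∑ i, ∑ l, s.u i * ev s.c (X l * T i l) :=
    sum_congr rfl fun i _ => by rw [map_sum, mul_sum]
  rw [e1, e2, e3, two_smul]
  abel

/-- The element `U`. -/
noncomputable def U : A := (2⁻¹ : k) • BB s.c s.u s.u p.T

/-- **The primitive of `P(x)`.** -/
noncomputable def prim : A := ∑ j, s.u j * ev s.c (p.P1 j) - B.y * s.U p

include hw in
theorem d_U : D.d (s.U p) = -∑ i, s.u i * ev s.c (∑ j, pderiv j P * Q1 j i) := by
  have h2 : (2 : k) ≠ 0 := two_ne_zero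
  rw [U, map_smul, s.d_BB hw p.T_anti, smul_neg, smul_smul, inv_mul_cancel₀ h2, one_smul]
  congr 1
  exact sum_congr rfl fun i _ => by rw [p.hT i]

omit [CharZero k] [DecidableEq σ] in
/-- the sums `G_j` are odd -/
theorem od_G {c : σ → Subalgebra.center k A} (hc : ∀ j, (c j : A) ∈ Ev D) {a : σ → A}
    (ha : ∀ i, a i ∈ Od D) (R : σ → MvPolynomial σ k) :
    ∑ i, a i * ev c (R i) ∈ Od D :=
  Submodule.sum_mem _ fun i _ => odd_mul_even (ha i) (ev_mem_Ev hc _)

include hw in
/-- `P(du) = P(x) + y ∑ u_i S_i(du)` -/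
theorem ev_P (P : MvPolynomial σ k) : ev s.c P = ev B.x P +
    B.y * ∑ i, s.u i * ev s.c (∑ j, pderiv j P * Q1 j i) := by
  have h1 := taylor (D := D) (x := B.x) (x' := s.c) B.od_y (g := fun j => ∑ i, s.u i *
    ev s.c (Q1 j i)) (fun j => od_G (s.ev_c hw) (s.od_u hw) _) s.eq P
  rw [h1]
  congr 1
  have e1 : B.y * ∑ j, (∑ i, s.u i * ev s.c (Q1 j i)) * ev B.x (pderiv j P) =
      B.y * ∑ j, (∑ i, s.u i * ev s.c (Q1 j i)) * ev s.c (pderiv j P) := by
    rw [mul_sum, mul_sum]
    exact sum_congr rfl fun j _ => (s.y_mul_ev _ _).symm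
  rw [e1]
  congr 1
  have e2 : ∀ j, (∑ i, s.u i * ev s.c (Q1 j i)) * ev s.c (pderiv j P) =
      ∑ i, s.u i * ev s.c (pderiv j P * Q1 j i) := by
    intro j
    rw [sum_mul]
    refine sum_congr rfl fun i _ => ?_
    rw [map_mul, ev_comm s.c (pderiv j P), mul_assoc]
  rw [sum_congr rfl fun j _ => e2 j, sum_comm]
  exact sum_congr rfl fun i _ => by rw [map_sum, mul_sum]

include hw in
/-- **`d prim = P(x)`.** -/
theorem d_prim : D.d (s.prim p) = ev B.x P := by
  rw [prim, map_sub, s.d_sum_uev hw, ← p.hP1, D.leib, B.dy, zero_mul, zero_add,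
    sg_odd B.od_y, neg_mul, s.d_U p hw, mul_neg, neg_neg, s.ev_P hw P]
  abel

end Kz

end Vale.Agent.P216.V994
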