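import Vale.Agent.P216.V994.Beta

/-!
# P216-V, V4 (algebra): `prim - prim' = d F` for two solutions over the same base
-/

open MvPolynomial Finset

namespace Vale.Agent.P216.V994

open Vale.Agent.P216.V706 Vale.Agent.P216.V609

namespace Kz

variable {σ : Type} [Fintype σ] [DecidableEq σ] {k A : Type*} [Field k] [CharZero k] [Ring A]
  [Algebra k A] {D : Cdga k A} {w : σ → ℕ} {f N : ℕ} {B : Base D w f}
  {Q1 : σ → σ → MvPolynomial σ k} {P : MvPolynomial σ k} (s s' : Kz B Q1)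
  (p : PD w f N Q1 P) (hw : ∀ j, 1 ≤ w j)

/-- `X_j = u'_j - u_j` -/
def XX (j : σ) : A := s'.u j - s.u j

/-- `Y_m = ∑ X_l Q_ml(c)` -/
noncomputable def YY (m : σ) : A := ∑ l, s.XX s' l * ev s.c (Q1 m l)

/-- The primitive, second part. -/
noncomputable def E' : A :=
  -((2⁻¹ : k) • ∑ l, BB s.c s.u s.u (p.V l) * s.XX s' l) +
    (2⁻¹ : k) • ∑ m, BB s.c (s.XX s') (s.XX s') (fun i l => p.W i l m) * s.u m

/-- **The primitive of `prim - prim'`.** -/
noncomputable def F : A := BB s.c (s.XX s') s.u p.P2 - B.y * s.E' s' p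

omit [DecidableEq σ] [CharZero k] in
theorem u'_eq (j : σ) : s'.u j = s.u j + s.XX s' j := by
  rw [XX]; abel

include hw in
omit [DecidableEq σ] [CharZero k] in
theorem od_XX (j : σ) : s.XX s' j ∈ Od D := Submodule.sub_mem _ (s'.od_u hw j) (s.od_u hw j)

include hw in
omit [CharZero k] in
omit [DecidableEq σ] in
theorem od_YY (j : σ) : s.YY s' j ∈ Od D :=
  od_G (s.ev_c hw) (s.od_XX s' hw) _

omit [DecidableEq σ] in
/-- `y` times a term with a factor `F(c')` -/
theorem y_mul_ev' (a : A) (F : MvPolynomial σ k) :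
    B.y * (a * ev s'.c F) = B.y * (a * ev s.c F) := by
  rw [s'.y_mul_ev, s.y_mul_ev]

omit [DecidableEq σ] in
theorem c'_eq (j : σ) : (s'.c j : A) = s.c j + B.y * s.YY s' j := by
  rw [s.eq j, s'.eq j, add_assoc, ← mul_add]
  congr 1
  have e : ∑ i, s.u i * ev s.c (Q1 j i) + s.YY s' j = ∑ i, s'.u i * ev s.c (Q1 j i) := by
    rw [YY, ← sum_add_distrib]
    exact sum_congr rfl fun i _ => by rw [← add_mul, ← u'_eq]
  rw [e, mul_sum, mul_sum]
  exact sum_congr rfl fun i _ => s.y_mul_ev' s' _ _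

omit [DecidableEq σ] in
theorem d_XX (j : σ) : D.d (s.XX s' j) = B.y * s.YY s' j := by
  rw [XX, map_sub, ← s.hc, ← s'.hc, s.c'_eq s']
  abel

omit [Fintype σ] [DecidableEq σ] in
theorem yy (B : Base D w f) (a : A) : B.y * (B.y * a) = 0 := by
  rw [← mul_assoc, odd_sq B.od_y, zero_mul]

omit [Fintype σ] [DecidableEq σ] in
theorem yay (B : Base D w f) {a : A} (ha : a ∈ Od D) (b : A) :
    B.y * (a * (B.y * b)) = 0 := by
  rw [← mul_assoc a, odd_comm ha B.od_y, neg_mul, mul_neg, mul_assoc B.y a, yy, neg_zero]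

omit [Fintype σ] [DecidableEq σ] in
theorem yay' (B : Base D w f) {a : A} (ha : a ∈ Ev D) (b : A) :
    B.y * (a * (B.y * b)) = 0 := by
  rw [← mul_assoc a, even_comm ha B.y, mul_assoc B.y a, yy]

include hw in
omit [CharZero k] [DecidableEq σ] in
theorem ev_BB {a b : σ → A} (ha : ∀ i, a i ∈ Od D) (hb : ∀ i, b i ∈ Od D)
    (R : σ → σ → MvPolynomial σ k) : BB s.c a b R ∈ Ev D :=
  Submodule.sum_mem _ fun i _ => Submodule.sum_mem _ fun l _ =>
    even_mul_even (odd_mul_odd (ha i) (hb l)) (ev_mem_Ev (s.ev_c hw) _)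

/-- The polynomials `K_il`. -/
noncomputable def KK (p : PD w f N Q1 P) (i l : σ) : MvPolynomial σ k :=
  ∑ m, pderiv m (p.P1 i) * Q1 m l

include hw in
/-- **(3)** -/
theorem prim_sub : s.prim p - s'.prim p = -∑ j, s.XX s' j * ev s.c (p.P1 j) +
    B.y * (BB s.c s.u (s.XX s') (KK p) + BB s.c (s.XX s') (s.XX s') (KK p) +
      BB s.c s.u (s.XX s') p.T + (2⁻¹ : k) • BB s.c (s.XX s') (s.XX s') p.T) := by
  have h2 : (2 : k) ≠ 0 := two_ne_zero
  -- Taylor
  have e1 : ∀ j, s'.u j * ev s'.c (p.P1 j) = s'.u j * ev s.c (p.P1 j) -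
      B.y * (s'.u j * ∑ m, s.YY s' m * ev s.c (pderiv m (p.P1 j))) := by
    intro j
    rw [taylor (D := D) (x := s.c) (x' := s'.c) B.od_y (s.od_YY s' hw) (s.c'_eq s') (p.P1 j), mul_add,
      ← mul_assoc (s'.u j) B.y, odd_comm (s'.od_u hw j) B.od_y, neg_mul, mul_assoc B.y,
      sub_eq_add_neg]
  have e2 : ∑ j, s'.u j * ∑ m, s.YY s' m * ev s.c (pderiv m (p.P1 j)) =
      BB s.c s'.u (s.XX s') (KK p) := by
    rw [show KK p = fun j l => ∑ m, pderiv m (p.P1 j) * Q1 m l from rfl, ← BB_comb]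
    refine sum_congr rfl fun j _ => ?_
    rw [mul_sum]
    exact sum_congr rfl fun m _ => by rw [YY, mul_assoc]
  have e3 : ∑ j, s'.u j * ev s'.c (p.P1 j) = ∑ j, s'.u j * ev s.c (p.P1 j) -
      B.y * BB s.c s'.u (s.XX s') (KK p) := by
    rw [sum_congr rfl fun j _ => e1 j, sum_sub_distrib, ← mul_sum, e2]
  have e4 : ∑ j, s'.u j * ev s.c (p.P1 j) = ∑ j, s.u j * ev s.c (p.P1 j) +
      ∑ j, s.XX s' j * ev s.c (p.P1 j) := by
    rw [← sum_add_distrib]
    exact sum_congr rfl fun j _ => by rw [← add_mul, ← u'_eq]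
  -- `y U'`
  have e5 : B.y * s'.U p = B.y * ((2⁻¹ : k) • BB s.c s'.u s'.u p.T) := by
    rw [U, mul_smul_comm, mul_smul_comm]
    congr 1
    unfold BB
    rw [mul_sum, mul_sum]
    refine sum_congr rfl fun i _ => ?_
    rw [mul_sum, mul_sum]
    exact sum_congr rfl fun l _ => s.y_mul_ev' s' _ _
  have hu' : s'.u = fun j => s.u j + s.XX s' j := funext fun j => s.u'_eq s' j
  have e6 : BB s.c s'.u s'.u p.T = BB s.c s.u s.u p.T + (2 : k) • BB s.c s.u (s.XX s') p.T +
      BB s.c (s.XX s') (s.XX s') p.T := by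
    rw [hu', BB_add_left, BB_add_right, BB_add_right,
      BB_anti D (s.od_XX s' hw) (s.od_u hw) p.T_anti, two_smul]
    abel
  have e7 : BB s.c s'.u (s.XX s') (KK p) = BB s.c s.u (s.XX s') (KK p) +
      BB s.c (s.XX s') (s.XX s') (KK p) := by
    rw [hu', BB_add_left]
  rw [prim, prim, e3, e4, e5, e6, e7, U, smul_add, smul_add, smul_smul, inv_mul_cancel₀ h2,
    one_smul]
  simp only [mul_add]
  abel

include hw in
/-- **(1)** -/
theorem d_first : D.d (BB s.c (s.XX s') s.u p.P2) =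
    -(B.y * BB s.c s.u (s.XX s') fun i l => ∑ j, p.P2 j i * Q1 j l) -
      ∑ j, s.XX s' j * ev s.c (p.P1 j) := by
  have e1 : D.d (BB s.c (s.XX s') s.u p.P2) =
      ∑ j, ∑ i, (B.y * (s.YY s' j * s.u i * ev s.c (p.P2 j i)) -
        s.XX s' j * ev s.c (X i * p.P2 j i)) := by
    unfold BB
    rw [map_sum]
    refine sum_congr rfl fun j _ => ?_
    rw [map_sum]
    refine sum_congr rfl fun i _ => ?_
    rw [D.leib, s.d_evc hw, mul_zero, add_zero, D.leib, sg_odd (s.od_XX s' hw j), s.d_XX, ← s.hc, map_mul,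
      ev_X, add_mul, neg_mul, neg_mul, ← sub_eq_add_neg]
    simp only [mul_assoc]
  have e2 : ∑ j, ∑ i, s.XX s' j * ev s.c (X i * p.P2 j i) =
      ∑ j, s.XX s' j * ev s.c (p.P1 j) := by
    refine sum_congr rfl fun j _ => ?_
    rw [p.hP2 j, map_sum, mul_sum]
  have e3 : ∑ j, ∑ i, B.y * (s.YY s' j * s.u i * ev s.c (p.P2 j i)) =
      -(B.y * BB s.c s.u (s.XX s') fun i l => ∑ j, p.P2 j i * Q1 j l) := by
    have e4 : (BB s.c s.u (s.XX s') fun i l => ∑ j, p.P2 j i * Q1 j l) =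
        ∑ i, ∑ j, s.u i * s.YY s' j * ev s.c (p.P2 j i) := by
      rw [← BB_comb (R2 := fun i j => p.P2 j i)]
      rfl
    rw [e4, sum_comm, mul_sum, ← sum_neg_distrib]
    refine sum_congr rfl fun i _ => ?_
    rw [mul_sum, ← sum_neg_distrib]
    refine sum_congr rfl fun j _ => ?_
    rw [odd_comm (s.od_YY s' hw j) (s.od_u hw i), neg_mul, mul_neg]
  simp only [sum_sub_distrib] at e1
  rw [e1, e2, e3]

include hw in
/-- **(2)** -/
theorem y_dE' : B.y * D.d (s.E' s' p) = B.y * (BB s.c s.u (s.XX s') (fun i l =>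
      ∑ j, Q1 j l * (p.P2 j i + pderiv j (p.P1 i)) + p.T i l) +
    (2⁻¹ : k) • BB s.c (s.XX s') (s.XX s') fun i l =>
      ∑ m, (pderiv m (p.P1 i) * Q1 m l - pderiv m (p.P1 l) * Q1 m i) + p.T i l) := by
  have h2 : (2 : k) ≠ 0 := two_ne_zero
  -- first sum
  have e1 : ∀ l, B.y * D.d (BB s.c s.u s.u (p.V l) * s.XX s' l) =
      -((2 : k) • (B.y * ((∑ i, s.u i * ev s.c (∑ m, X m * p.V l i m)) * s.XX s' l))) := by
    intro l
    rw [D.leib, s.d_BB hw (p.V_anti l), s.d_XX, mul_add,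
      yay' B (by rw [sg_even (s.ev_BB hw (s.od_u hw) (s.od_u hw) _)]; exact s.ev_BB hw (s.od_u hw) (s.od_u hw) _),
      add_zero, neg_mul, smul_mul_assoc, mul_neg, mul_smul_comm]
  have e2 : ∑ l, (∑ i, s.u i * ev s.c (∑ m, X m * p.V l i m)) * s.XX s' l =
      BB s.c s.u (s.XX s') (fun i l =>
        ∑ j, Q1 j l * (p.P2 j i + pderiv j (p.P1 i)) + p.T i l) := by
    unfold BB
    rw [sum_comm]
    refine sum_congr rfl fun l _ => ?_
    rw [sum_mul]
    refine sum_congr rfl fun i _ => ?_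
    rw [← p.hV i l, mul_assoc, ev_comm s.c _ (s.XX s' l), ← mul_assoc]
  -- second sum
  have e3 : ∀ m, B.y * D.d (BB s.c (s.XX s') (s.XX s') (fun i l => p.W i l m) * s.u m) =
      B.y * (BB s.c (s.XX s') (s.XX s') (fun i l => p.W i l m) * s.c m) := by
    intro m
    have e4 : B.y * D.d (BB s.c (s.XX s') (s.XX s') (fun i l => p.W i l m)) = 0 := by
      unfold BB
      rw [map_sum, mul_sum]
      refine sum_eq_zero fun i _ => ?_
      rw [map_sum, mul_sum]
      refine sum_eq_zero fun l _ => ?_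
      rw [D.leib, s.d_evc hw, mul_zero, add_zero, D.leib, s.d_XX, s.d_XX, sg_odd (s.od_XX s' hw i),
        ← mul_assoc, mul_add, mul_assoc B.y (s.YY s' i), yy, neg_mul, mul_neg,
        yay B (s.od_XX s' hw i), neg_zero, add_zero, zero_mul]
    rw [D.leib, mul_add, ← mul_assoc, e4, zero_mul, zero_add, ← s.hc,
      sg_even (s.ev_BB hw (s.od_XX s' hw) (s.od_XX s' hw) _)]
  have e5 : ∑ m, BB s.c (s.XX s') (s.XX s') (fun i l => p.W i l m) * s.c m =
      BB s.c (s.XX s') (s.XX s') fun i l =>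
        ∑ m, (pderiv m (p.P1 i) * Q1 m l - pderiv m (p.P1 l) * Q1 m i) + p.T i l := by
    have e6 : ∀ i l, ev s.c (∑ m, (pderiv m (p.P1 i) * Q1 m l - pderiv m (p.P1 l) *
        Q1 m i) + p.T i l) = ∑ m, ev s.c (p.W i l m) * s.c m := by
      intro i l
      rw [p.hW i l, map_sum]
      refine sum_congr rfl fun m _ => ?_
      rw [map_mul, ev_X, Subalgebra.mem_center_iff.1 (s.c m).2]
    unfold BB
    simp only [sum_mul, e6, mul_sum]
    rw [sum_comm]
    refine sum_congr rfl fun i _ => ?_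
    rw [sum_comm]
    refine sum_congr rfl fun l _ => ?_
    exact sum_congr rfl fun m _ => by simp only [mul_assoc]
  rw [E', map_add, map_neg, map_smul, map_smul, map_sum, map_sum, mul_add, mul_neg,
    mul_smul_comm, mul_smul_comm, mul_sum, mul_sum, sum_congr rfl fun l _ => e1 l,
    sum_congr rfl fun m _ => e3 m, sum_neg_distrib, smul_neg, neg_neg, ← smul_sum, smul_smul,
    inv_mul_cancel₀ h2, one_smul, ← mul_sum, ← mul_sum, e2, e5, mul_add, mul_smul_comm]

include hw in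
/-- **`prim - prim' = d F`.** -/
theorem d_F : D.d (s.F s' p) = s.prim p - s'.prim p := by
  have h2 : (2 : k) ≠ 0 := two_ne_zero
  have a1 : (BB s.c s.u (s.XX s') fun i l =>
      ∑ j, Q1 j l * (p.P2 j i + pderiv j (p.P1 i)) + p.T i l) =
      (BB s.c s.u (s.XX s') fun i l => ∑ j, p.P2 j i * Q1 j l) +
        BB s.c s.u (s.XX s') (KK p) + BB s.c s.u (s.XX s') p.T := by
    rw [← BB_add, ← BB_add]
    congr 1
    funext i l
    rw [KK, ← sum_add_distrib]
    congr 1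
    exact sum_congr rfl fun j _ => by ring
  have a2 : (BB s.c (s.XX s') (s.XX s') fun i l =>
      ∑ m, (pderiv m (p.P1 i) * Q1 m l - pderiv m (p.P1 l) * Q1 m i) + p.T i l) =
      (2 : k) • BB s.c (s.XX s') (s.XX s') (KK p) + BB s.c (s.XX s') (s.XX s') p.T := by
    have a3 : (fun i l => ∑ m, (pderiv m (p.P1 i) * Q1 m l - pderiv m (p.P1 l) * Q1 m i) +
        p.T i l) = fun i l => (KK p i l + -KK p l i) + p.T i l := by
      funext i l
      rw [sum_sub_distrib, KK, KK, sub_eq_add_neg]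
    have a4 : BB s.c (s.XX s') (s.XX s') (KK p) =
        -BB s.c (s.XX s') (s.XX s') fun i l => KK p l i :=
      BB_swap D (s.od_XX s' hw) (s.od_XX s' hw)
    rw [a3, BB_add, BB_add, BB_neg, ← a4, two_smul]
  rw [F, map_sub, s.d_first s' p hw, D.leib, B.dy, zero_mul, zero_add, sg_odd B.od_y, neg_mul,
    s.y_dE' s' p hw, s.prim_sub s' p hw, a1, a2, smul_add, smul_smul, inv_mul_cancel₀ h2, one_smul]
  simp only [mul_add]
  abel

omit [CharZero k] [DecidableEq σ] in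
/-- `F = 0` if `u = 0`, `y = 0`. -/
theorem F_zero (hu : ∀ j, s.u j = 0) (hy : B.y = 0) : s.F s' p = 0 := by
  rw [F, hy, zero_mul, sub_zero]
  unfold BB
  refine sum_eq_zero fun i _ => sum_eq_zero fun l _ => ?_
  rw [hu, mul_zero, zero_mul]

end Kz

end Vale.Agent.P216.V994
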