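import Vale.Agent.P216.V994.Diff

/-!
# P216-V, V4 (algebra): degrees of `prim`, `F`; naturality
-/

open MvPolynomial Finset

namespace Vale.Agent.P216.V994

open Vale.Agent.P216.V706 Vale.Agent.P216.V609

section Deg

variable {σ : Type} {k A : Type*} [Field k] [Ring A] [Algebra k A] {D : Cdga k A} {w : σ → ℕ}

theorem ev_monomial_mem {x : σ → Subalgebra.center k A} (hx : ∀ j, (x j : A) ∈ D.deg (2 * w j))
    (s : σ →₀ ℕ) (c : k) : ev x (monomial s c) ∈ D.deg (2 * Finsupp.weight w s) := by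
  have key : ev x (monomial s (1 : k)) ∈ D.deg (2 * Finsupp.weight w s) := by
    induction s using Finsupp.induction with
    | zero => simpa using D.one_mem
    | single_add i b f hi hb ih =>
      have h1 : monomial (Finsupp.single i b + f) (1 : k) = X i ^ b * monomial f 1 := by
        rw [X_pow_eq_monomial, monomial_mul, one_mul]
      rw [h1, map_mul, map_pow, ev_X, map_add, Finsupp.weight_single, mul_add]
      refine D.mul_mem ?_ ih
      have h2 := D.pow_mem (hx i) b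
      rwa [show b * (2 * w i) = 2 * b • w i by rw [smul_eq_mul]; ring] at h2
  have h1 : (monomial s c : MvPolynomial σ k) = c • monomial s 1 := by
    rw [smul_monomial, smul_eq_mul, mul_one]
  rw [h1, map_smul]
  exact Submodule.smul_mem _ _ key

/-- **Degrees**: `a F(x)` for `F` of weight `N - r`. -/
theorem mul_ev_mem {x : σ → Subalgebra.center k A} (hx : ∀ j, (x j : A) ∈ D.deg (2 * w j))
    {r N p q : ℕ} {F : MvPolynomial σ k} (hF : WH w r N F) {a : A} (ha : a ∈ D.deg p)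
    (h : p + 2 * N = q + 2 * r) : a * ev x F ∈ D.deg q := by
  rw [F.as_sum, map_sum, mul_sum]
  refine Submodule.sum_mem _ fun s hs => ?_
  have h1 := hF s (mem_support_iff.1 hs)
  have h2 := D.mul_mem ha (ev_monomial_mem hx s (coeff s F))
  rwa [show p + 2 * Finsupp.weight w s = q by omega] at h2

variable [Fintype σ]

/-- degrees of `y ∑ a_i b_l R_il` -/
theorem mul_BB_mem {c : σ → Subalgebra.center k A} (hc : ∀ j, (c j : A) ∈ D.deg (2 * w j))
    (hw : ∀ j, 1 ≤ w j) {a b : σ → A} (ha : ∀ j, a j ∈ D.deg (2 * w j - 1))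
    (hb : ∀ j, b j ∈ D.deg (2 * w j - 1)) {r N p q : ℕ} {R : σ → σ → MvPolynomial σ k}
    (hR : ∀ i l, WH w (w i + w l + r) N (R i l)) {y : A} (hy : y ∈ D.deg p)
    (h : p + 2 * N = q + 2 * r + 2) : y * BB c a b R ∈ D.deg q := by
  unfold BB
  rw [mul_sum]
  refine Submodule.sum_mem _ fun i _ => ?_
  rw [mul_sum]
  refine Submodule.sum_mem _ fun l _ => ?_
  rw [← mul_assoc]
  refine mul_ev_mem hc (hR i l) (D.mul_mem hy (D.mul_mem (ha i) (hb l))) ?_
  have := hw i
  have := hw l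
  omega

end Deg

/-! ### The degrees of `prim` and `F` -/

namespace Kz

variable {σ : Type} [Fintype σ] {k A : Type*} [Field k] [Ring A]
  [Algebra k A] {D : Cdga k A} {w : σ → ℕ} {f n : ℕ} {B : Base D w f}
  {Q1 : σ → σ → MvPolynomial σ k} {P : MvPolynomial σ k} (s s' : Kz B Q1)
  (p : PD w f (n + 1) Q1 P) (hw : ∀ j, 1 ≤ w j)

theorem XX_mem (j : σ) : s.XX s' j ∈ D.deg (2 * w j - 1) :=
  Submodule.sub_mem _ (s'.u_mem j) (s.u_mem j)

include hw

/-- **`prim` has degree `2 n + 1`.** -/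
theorem prim_mem : s.prim p ∈ D.deg (2 * n + 1) := by
  refine Submodule.sub_mem _ (Submodule.sum_mem _ fun j _ => ?_) ?_
  · refine mul_ev_mem (s.c_mem hw) (p.wP1 j) (s.u_mem j) ?_
    have := hw j
    omega
  · rw [U, mul_smul_comm]
    exact Submodule.smul_mem _ _ (mul_BB_mem (s.c_mem hw) hw s.u_mem s.u_mem p.wT B.y_mem
      (by omega))

/-- **`F` has degree `2 n`.** -/
theorem F_mem : s.F s' p ∈ D.deg (2 * n) := by
  refine Submodule.sub_mem _ ?_ ?_
  · have := mul_BB_mem (s.c_mem hw) hw (s.XX_mem s') s.u_mem (r := 0) (q := 2 * n) p.wP2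
      D.one_mem (by omega)
    rwa [one_mul] at this
  · rw [E', mul_add, mul_neg, mul_smul_comm, mul_smul_comm, mul_sum, mul_sum]
    refine Submodule.add_mem _ (Submodule.neg_mem _ (Submodule.smul_mem _ _
      (Submodule.sum_mem _ fun l _ => ?_))) (Submodule.smul_mem _ _
      (Submodule.sum_mem _ fun m _ => ?_))
    · have e : B.y * (BB s.c s.u s.u (p.V l) * s.XX s' l) =
          -(s.XX s' l * B.y * BB s.c s.u s.u (p.V l)) := by
        rw [even_comm (s.ev_BB hw (s.od_u hw) (s.od_u hw) _), ← mul_assoc,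
          odd_comm B.od_y (s.od_XX s' hw l), neg_mul]
      rw [e]
      refine Submodule.neg_mem _ ?_
      refine mul_BB_mem (s.c_mem hw) hw s.u_mem s.u_mem (r := w l + f) (N := n + 1)
        (fun i m => (p.wV l i m).congr (by omega)) (D.mul_mem (s.XX_mem s' l) B.y_mem) ?_
      have := hw l
      omega
    · have e : B.y * (BB s.c (s.XX s') (s.XX s') (fun i l => p.W i l m) * s.u m) =
          -(s.u m * B.y * BB s.c (s.XX s') (s.XX s') (fun i l => p.W i l m)) := by
        rw [even_comm (s.ev_BB hw (s.od_XX s' hw) (s.od_XX s' hw) _), ← mul_assoc,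
          odd_comm B.od_y (s.od_u hw m), neg_mul]
      rw [e]
      refine Submodule.neg_mem _ ?_
      refine mul_BB_mem (s.c_mem hw) hw (s.XX_mem s') (s.XX_mem s') (r := w m + f)
        (N := n + 1) (fun i l => (p.wW i l m).congr (by omega))
        (D.mul_mem (s.u_mem m) B.y_mem) ?_
      have := hw m
      omega

/-- **The closed class** `z - prim`, for `d z = P(x)`. -/
theorem sub_prim_mem_Z [CharZero k] [DecidableEq σ] {z : A} (hz : z ∈ D.deg (2 * n + 1))
    (hdz : D.d z = ev B.x P) : z - s.prim p ∈ D.Z (2 * n + 1) := by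
  refine D.mem_Z.2 ⟨Submodule.sub_mem _ hz (s.prim_mem p hw), ?_⟩
  rw [map_sub, hdz, s.d_prim p hw, sub_self]

end Kz

/-! ### Naturality -/

section Nat

variable {σ : Type} {k A A' : Type*} [Field k] [Ring A] [Algebra k A]
  [Ring A'] [Algebra k A'] {D : Cdga k A} {D' : Cdga k A'}

theorem map_ev (φ : A →ₐ[k] A') {x : σ → Subalgebra.center k A}
    {x' : σ → Subalgebra.center k A'} (h : ∀ j, φ (x j) = x' j) (F : MvPolynomial σ k) :
    φ (ev x F) = ev x' F := by
  induction F using MvPolynomial.induction_on with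
  | C a => rw [ev_C, ev_C, AlgHom.commutes]
  | add p q hp hq => rw [map_add, map_add, map_add, hp, hq]
  | mul_X p i hp => rw [map_mul, map_mul, map_mul, hp, ev_X, ev_X, h]

theorem map_BB [Fintype σ] (φ : A →ₐ[k] A') {x : σ → Subalgebra.center k A}
    {x' : σ → Subalgebra.center k A'} (h : ∀ j, φ (x j) = x' j) {a b : σ → A} {a' b' : σ → A'}
    (ha : ∀ j, φ (a j) = a' j) (hb : ∀ j, φ (b j) = b' j) (R : σ → σ → MvPolynomial σ k) :
    φ (BB x a b R) = BB x' a' b' R := by
  unfold BB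
  rw [map_sum]
  refine sum_congr rfl fun i _ => ?_
  rw [map_sum]
  exact sum_congr rfl fun l _ => by rw [map_mul, map_mul, ha, hb, map_ev φ h]

/-- The central element of an element of even degree. -/
def cen (D : Cdga k A) {q : ℕ} {a : A} (ha : a ∈ D.deg (2 * q)) : Subalgebra.center k A :=
  ⟨a, Subalgebra.mem_center_iff.2 fun b => (D.comm_even ha (even_two_mul q) b).symm⟩

@[simp] theorem cen_coe {q : ℕ} {a : A} (ha : a ∈ D.deg (2 * q)) : (cen D ha : A) = a := rfl

variable {w : σ → ℕ} {f : ℕ}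

/-- The image of a base. -/
def Base.map (B : Base D w f) (φ : Cdga.Hom D D') : Base D' w f where
  x j := cen D' (φ.deg (B.x_mem j))
  x_mem j := φ.deg (B.x_mem j)
  y := φ.f B.y
  y_mem := φ.deg B.y_mem
  dy := by rw [← φ.d, B.dy, map_zero]

@[simp] theorem Base.map_x (B : Base D w f) (φ : Cdga.Hom D D') (j : σ) :
    ((B.map φ).x j : A') = φ.f (B.x j) := rfl

@[simp] theorem Base.map_y (B : Base D w f) (φ : Cdga.Hom D D') : (B.map φ).y = φ.f B.y := rfl

theorem Base.ext' {B B' : Base D w f} (hx : ∀ j, (B.x j : A) = B'.x j) (hy : B.y = B'.y) :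
    B = B' := by
  obtain ⟨x, h1, y, h2, h3⟩ := B
  obtain ⟨x', h1', y', h2', h3'⟩ := B'
  have e1 : x = x' := funext fun j => Subtype.ext (hx j)
  have e2 : y = y' := hy
  subst e1 e2
  rfl

theorem Base.map_map {A'' : Type*} [Ring A''] [Algebra k A''] {D'' : Cdga k A''}
    (B : Base D w f) (φ : Cdga.Hom D D') (ψ : Cdga.Hom D' D'') :
    (B.map φ).map ψ = B.map (ψ.comp φ) := rfl

theorem Base.map_ev (B : Base D w f) (φ : Cdga.Hom D D') (F : MvPolynomial σ k) :
    ev (B.map φ).x F = φ.f (ev B.x F) :=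
  (Vale.Agent.P216.V994.map_ev φ.f (fun _ => rfl) F).symm

variable [Fintype σ] {B : Base D w f} {B' : Base D' w f}
  {Q1 : σ → σ → MvPolynomial σ k} {P : MvPolynomial σ k} {N : ℕ}

theorem Kz.ext' {s s' : Kz B Q1} (h : ∀ j, s.u j = s'.u j) : s = s' := by
  have hu : s.u = s'.u := funext h
  have hc : s.c = s'.c := funext fun j => Subtype.ext (by rw [s.hc, s'.hc, hu])
  cases s
  cases s'
  simp only at hu hc
  subst hu hc
  rfl

/-- The image of a solution. -/
def Kz.map (s : Kz B Q1) (hw : ∀ j, 1 ≤ w j) (φ : Cdga.Hom D D')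
    (hx : ∀ j, φ.f (B.x j) = B'.x j) (hy : φ.f B.y = B'.y) : Kz B' Q1 where
  u j := φ.f (s.u j)
  u_mem j := φ.deg (s.u_mem j)
  c j := cen D' (φ.deg (s.c_mem hw j))
  hc j := by
    rw [cen_coe, s.hc, φ.d]
  eq j := by
    rw [cen_coe, s.eq j, map_add, map_mul, map_sum, hx, hy]
    congr 2
    refine sum_congr rfl fun i _ => ?_
    rw [map_mul]
    congr 1
    exact Vale.Agent.P216.V994.map_ev φ.f (fun j => rfl) _

@[simp] theorem Kz.map_u (s : Kz B Q1) (hw : ∀ j, 1 ≤ w j) (φ : Cdga.Hom D D')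
    (hx : ∀ j, φ.f (B.x j) = B'.x j) (hy : φ.f B.y = B'.y) (j : σ) :
    (s.map hw φ hx hy).u j = φ.f (s.u j) := rfl

theorem Kz.map_c (φ : Cdga.Hom D D') {s : Kz B Q1} {t : Kz B' Q1}
    (hu : ∀ j, φ.f (s.u j) = t.u j) (j : σ) : φ.f (s.c j) = t.c j := by
  rw [s.hc, φ.d, hu, t.hc]

/-- **Naturality of `prim`.** -/
theorem Kz.map_prim (φ : Cdga.Hom D D') (s : Kz B Q1) (t : Kz B' Q1) (p : PD w f N Q1 P)
    (hy : φ.f B.y = B'.y) (hu : ∀ j, φ.f (s.u j) = t.u j) : φ.f (s.prim p) = t.prim p := by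
  rw [prim, prim, U, U, map_sub, map_mul, map_smul, hy, map_sum,
    map_BB φ.f (map_c φ hu) hu hu]
  congr 1
  exact sum_congr rfl fun j _ => by
    rw [map_mul, hu, Vale.Agent.P216.V994.map_ev φ.f (map_c φ hu)]

/-- **Naturality of `F`.** -/
theorem Kz.map_F (φ : Cdga.Hom D D') (s s' : Kz B Q1) (t t' : Kz B' Q1) (p : PD w f N Q1 P)
    (hy : φ.f B.y = B'.y) (hu : ∀ j, φ.f (s.u j) = t.u j) (hu' : ∀ j, φ.f (s'.u j) = t'.u j) :
    φ.f (s.F s' p) = t.F t' p := by
  have hc := map_c φ hu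
  have hX : ∀ j, φ.f (s.XX s' j) = t.XX t' j := fun j => by
    rw [XX, XX, map_sub, hu, hu']
  rw [F, F, E', E', map_sub, map_mul, hy, map_add, map_neg, map_smul, map_smul,
    map_sum, map_sum, map_BB φ.f hc hX hu,
    sum_congr rfl fun l _ => show φ.f (BB s.c s.u s.u (p.V l) * s.XX s' l) =
      BB t.c t.u t.u (p.V l) * t.XX t' l by rw [map_mul, hX, map_BB φ.f hc hu hu],
    sum_congr rfl fun m _ => show φ.f (BB s.c (s.XX s') (s.XX s') (fun i l => p.W i l m) * s.u m) =
      BB t.c (t.XX t') (t.XX t') (fun i l => p.W i l m) * t.u m by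
        rw [map_mul, hu, map_BB φ.f hc hX hX]]

/-- A family from the equations `d u_j = x_j + y ∑ u_i Q_ji(x)`. -/
def Kz.ofEq [CharZero k] (hw : ∀ j, 1 ≤ w j) (u : σ → A)
    (hu : ∀ j, u j ∈ D.deg (2 * w j - 1))
    (h : ∀ j, D.d (u j) = B.x j + B.y * ∑ i, u i * ev B.x (Q1 j i)) : Kz B Q1 where
  u := u
  u_mem := hu
  c j := cen D (q := w j) (a := D.d (u j)) (by
    have := D.d_mem (hu j)
    rwa [show 2 * w j - 1 + 1 = 2 * w j by have := hw j; omega] at this)
  hc j := rfl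
  eq j := by
    rw [cen_coe, h j]
    congr 1
    rw [mul_sum, mul_sum]
    refine sum_congr rfl fun i _ => ?_
    rw [← ev_comm, ← ev_comm, ← mul_assoc, ← mul_assoc]
    congr 1
    refine mul_ev_congr (fun l => ?_) _
    rw [cen_coe, h l, mul_add, ← mul_assoc, odd_sq B.od_y, zero_mul, add_zero]

@[simp] theorem Kz.ofEq_u [CharZero k] (hw : ∀ j, 1 ≤ w j) (u : σ → A)
    (hu : ∀ j, u j ∈ D.deg (2 * w j - 1))
    (h : ∀ j, D.d (u j) = B.x j + B.y * ∑ i, u i * ev B.x (Q1 j i)) (j : σ) :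
    (Kz.ofEq hw u hu h).u j = u j := rfl

/-- the equation in terms of `x` -/
theorem Kz.d_u [CharZero k] (K : Kz B Q1) (j : σ) :
    D.d (K.u j) = B.x j + B.y * ∑ i, K.u i * ev B.x (Q1 j i) := by
  rw [← K.hc, K.eq j]
  congr 1
  rw [mul_sum, mul_sum]
  exact sum_congr rfl fun i _ => K.y_mul_ev _ _

/-- The zero family over `x = 0`, `y = 0`. -/
def Kz.zero (hx : ∀ j, (B.x j : A) = 0) (hy : B.y = 0) : Kz B Q1 where
  u _ := 0
  u_mem _ := Submodule.zero_mem _
  c _ := 0
  hc _ := by rw [map_zero]; rfl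
  eq j := by rw [hx, hy, zero_mul, add_zero]; rfl

@[simp] theorem Kz.zero_u (hx : ∀ j, (B.x j : A) = 0) (hy : B.y = 0) (j : σ) :
    (Kz.zero hx hy : Kz B Q1).u j = 0 := rfl

/-- `prim = 0` if `u = 0`. -/
theorem Kz.prim_zero (s : Kz B Q1) (p : PD w f N Q1 P) (hu : ∀ j, s.u j = 0) :
    s.prim p = 0 := by
  have h1 : BB s.c s.u s.u p.T = 0 := by
    unfold BB
    exact sum_eq_zero fun i _ => sum_eq_zero fun l _ => by rw [hu, zero_mul, zero_mul]
  rw [prim, U, h1, smul_zero, mul_zero, sub_zero]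
  exact sum_eq_zero fun j _ => by rw [hu, zero_mul]

/-- `prim = 0` for the zero data. -/
theorem Kz.prim_PD_zero (s : Kz B Q1) (h : ∀ j i, WH w (w i + f) (w j) (Q1 j i)) :
    s.prim (PD.zero h : PD w f N Q1 0) = 0 := by
  have h1 : BB s.c s.u s.u (PD.zero h : PD w f N Q1 0).T = 0 := by
    unfold BB
    exact sum_eq_zero fun i _ => sum_eq_zero fun l _ => by
      rw [show (PD.zero h : PD w f N Q1 0).T i l = 0 from rfl, map_zero, mul_zero]
  rw [prim, U, h1, smul_zero, mul_zero, sub_zero]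
  exact sum_eq_zero fun j _ => by
    rw [show (PD.zero h : PD w f N Q1 0).P1 j = 0 from rfl, map_zero, mul_zero]

end Nat

end Vale.Agent.P216.V994
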