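import Vale.Agent.P216.H929V.HD
import Vale.Agent.P216.H961.VaH
import Vale.Agent.P216.V1.Point
import Vale.Agent.P216.H456.PTriv
import Vale.Agent.P216.V775.NTower

/-!
# P216-V, F-INST: the hybrid dgas of paths with a fixed end point, at fixed scales

`e₀ w = w 0`.  `PI.D b t ε`: lists of paths in `PF b t`, measures on `M`; `PI.O b t ε`: lists of
based loops, measures on `{b}`.  `PI.rr`: restrictions, `PI.rO`: restriction to the fibre.
-/

set_option linter.all false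

open Set Filter Topology BoundedContinuousFunction
open scoped ContDiff

namespace Vale.Agent.P216.V994

open Vale.Agent.P231.Fm Vale.Agent.P231.WA Vale.Agent.P216.V1 Vale.Agent.P216.H923G
open Vale.Agent.P216.H929V Vale.Agent.P216.V609 Vale.Agent.P216.H285V Vale.Agent.P216.H961
open Vale.Agent.P216.V775

noncomputable section

/-! ### Restrictions of hybrid dgas -/

section gen

variable {E M N : Type} [PseudoMetricSpace E] [PseudoMetricSpace M] [PseudoMetricSpace N]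
variable {π : E → N} {ρ : M → N} {A B C : Set M} {X Y Z : Set E} {ε ε' ε'' : ℝ}

variable (π ρ) in
/-- restriction to smaller sets and a smaller scale -/
def rst (hA : A ⊆ B) (hX : X ⊆ Y) (hε : ε ≤ ε') : NDga.Hom (hN π ρ B Y ε') (hN π ρ A X ε) :=
  pullHom Sq.id (map_mono hA hX hε)

theorem rst_val (hA : A ⊆ B) (hX : X ⊆ Y) (hε : ε ≤ ε') (w : HT π ρ B Y ε') :
    ((rst π ρ hA hX hε).f w).val = Form.pull id (map_mono hA hX hε) w.val := rfl

theorem rst_rst (hA : A ⊆ B) (hX : X ⊆ Y) (hε : ε ≤ ε') (hB : B ⊆ C) (hY : Y ⊆ Z)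
    (hε' : ε' ≤ ε'') (w : HT π ρ C Z ε'') :
    (rst π ρ hA hX hε).f ((rst π ρ hB hY hε').f w) =
      (rst π ρ (hA.trans hB) (hX.trans hY) (hε.trans hε')).f w :=
  (pullHom_comp Sq.id (map_mono hB hY hε') Sq.id (map_mono hA hX hε) Sq.id
    (map_mono (hA.trans hB) (hX.trans hY) (hε.trans hε')) w).symm

theorem rst_self (hA : A ⊆ A) (hX : X ⊆ X) (hε : ε ≤ ε) (w : HT π ρ A X ε) :
    (rst π ρ hA hX hε).f w = w := pullHom_id _ w

/-- restriction of forms on the base -/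
def rbs (hX : X ⊆ Y) (hε : ε ≤ ε') : Cdga.Hom (fC (DM Y ε')) (fC (DM X ε)) :=
  fHom id (map_monoM hX hε)

theorem rbs_apply (hX : X ⊆ Y) (hε : ε ≤ ε') (w : Form (DM Y ε')) :
    (rbs hX hε).f w = Form.pull id (map_monoM hX hε) w := rfl

theorem rst_iC (hA : A ⊆ B) (hX : X ⊆ Y) (hε : ε ≤ ε') (w : Form (DM Y ε')) :
    (rst π ρ hA hX hε).f ((iC π ρ B Y ε').f w) = (iC π ρ A X ε).f ((rbs hX hε).f w) :=
  pullHom_iC (φ := id) Sq.id (map_mono hA hX hε) (map_monoM hX hε) (fun _ => rfl) w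

theorem rst_LF (hA : A ⊆ B) (hX : X ⊆ Y) (hε : ε ≤ ε') {n : ℕ} {w : HT π ρ B Y ε'}
    (hw : w ∈ LF π ρ B Y ε' n) : (rst π ρ hA hX hε).f w ∈ LF π ρ A X ε n := fun p hp => by
  rw [rst_val, ← pull_len Sq.id, hw p hp]
  exact map_zero (Form.pullA id (map_mono hA hX hε))

/-- **over a point the elements of degree `n` with no list of length `> n` vanish** -/
theorem eq_zero_of_LF {x₀ : E} (hX : ∀ x ∈ X, x = x₀) {n : ℕ} {w : HT π ρ A X ε}
    (hw : w ∈ LF π ρ A X ε n) (hd : w ∈ (hN π ρ A X ε).deg n) : w = 0 := by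
  have h1 : TDg (n + 1) w.val := hd
  refine HT.ext ?_
  rw [← h1.len_point hX, hw (n + 1) (Nat.lt_succ_self n)]
  rfl

end gen

/-! ### The paths -/

namespace PI

variable {M : Type} [MetricSpace M]

/-- the start of a path -/
def e₀ (w : ℝ →ᵇ M) : M := w 0

theorem P_mono {a b : M} {t s : ℝ} (h : t ≤ s) : PS.P a b t ⊆ PS.P a b s :=
  fun _ hw => ⟨hw.1, hw.2.1, fun u hu => hw.2.2 u (h.trans hu)⟩

variable (b : M)

/-- the base at scale `i` -/
abbrev C (M : Type) [MetricSpace M] (i : Sc) : Cdga ℝ (Form (DM (univ : Set M) i.v)) :=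
  fC (DM (univ : Set M) i.v)

/-- restriction of the base -/
abbrev be (M : Type) [MetricSpace M] {i j : Sc} (h : i ≤ j) : Cdga.Hom (C M i) (C M j) :=
  rbs (Subset.rfl : (univ : Set M) ⊆ univ) (Sc.le_iff.1 h)

/-- the hybrid dga of the paths ending at `b` -/
abbrev D (t : ℝ) (i : Sc) : NDga ℝ (HT (id : M → M) e₀ (H456.PF b t) univ i.v) :=
  hN (id : M → M) e₀ (H456.PF b t) univ i.v

/-- the base forms are central -/
abbrev ph (t : ℝ) (i : Sc) : CHom (C M i) (D b t i) := iC (id : M → M) e₀ (H456.PF b t) univ i.v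

/-- restrictions -/
abbrev r {t s : ℝ} {i j : Sc} (h : t ≤ s) (hij : i ≤ j) : NDga.Hom (D b s i) (D b t j) :=
  rst (id : M → M) e₀ (H456.PF_mono h) (Subset.rfl : (univ : Set M) ⊆ univ) (Sc.le_iff.1 hij)

/-- the filtration -/
abbrev L (t : ℝ) (i : Sc) : ℕ → Submodule ℝ (HT (id : M → M) e₀ (H456.PF b t) univ i.v) :=
  LF (id : M → M) e₀ (H456.PF b t) univ i.v

/-- the fibre -/
abbrev O (t : ℝ) (i : Sc) : NDga ℝ (HT (id : M → M) e₀ (PS.P b b t) {b} i.v) :=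
  hN (id : M → M) e₀ (PS.P b b t) {b} i.v

/-- restrictions of the fibre -/
abbrev sg {t s : ℝ} {i j : Sc} (h : t ≤ s) (hij : i ≤ j) : NDga.Hom (O b s i) (O b t j) :=
  rst (id : M → M) e₀ (P_mono h) (Subset.rfl : ({b} : Set M) ⊆ {b}) (Sc.le_iff.1 hij)

/-- restriction to the fibre -/
abbrev rO (t : ℝ) (i : Sc) : NDga.Hom (D b t i) (O b t i) :=
  rst (id : M → M) e₀ H456.P_subset_PF (subset_univ ({b} : Set M)) le_rfl

theorem be_be {i j l : Sc} (h : i ≤ j) (h' : j ≤ l) (a : Form (DM (univ : Set M) i.v)) :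
    (be M h').f ((be M h).f a) = (be M (h.trans h')).f a :=
  (Form.pull_comp (f := id) (g := id) (map_monoM Subset.rfl (Sc.le_iff.1 h'))
    (map_monoM Subset.rfl (Sc.le_iff.1 h)) (map_monoM Subset.rfl (Sc.le_iff.1 (h.trans h'))) a).symm

theorem be_self (i : Sc) (h : i ≤ i) (a : Form (DM (univ : Set M) i.v)) : (be M h).f a = a :=
  Form.pull_id (map_monoM Subset.rfl (Sc.le_iff.1 h)) a

theorem r_r {t u s : ℝ} {i j l : Sc} (h : u ≤ s) (h' : t ≤ u) (hi : i ≤ j) (hj : j ≤ l)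
    (a : HT (id : M → M) e₀ (H456.PF b s) univ i.v) :
    (r b h' hj).f ((r b h hi).f a) = (r b (h'.trans h) (hi.trans hj)).f a := rst_rst _ _ _ _ _ _ a

theorem r_self {t : ℝ} {i : Sc} (h : t ≤ t) (hi : i ≤ i)
    (a : HT (id : M → M) e₀ (H456.PF b t) univ i.v) : (r b h hi).f a = a := rst_self _ _ _ a

theorem r_ph {t s : ℝ} {i j : Sc} (h : t ≤ s) (hij : i ≤ j)
    (a : Form (DM (univ : Set M) i.v)) :
    (r b h hij).f ((ph b s i).f a) = (ph b t j).f ((be M hij).f a) := rst_iC _ _ _ a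

theorem r_L {t s : ℝ} {i j : Sc} (h : t ≤ s) (hij : i ≤ j) {n : ℕ}
    {w : HT (id : M → M) e₀ (H456.PF b s) univ i.v} (hw : w ∈ L b s i n) :
    (r b h hij).f w ∈ L b t j n := rst_LF _ _ _ hw

theorem sg_sg {t u s : ℝ} {i j l : Sc} (h : u ≤ s) (h' : t ≤ u) (hi : i ≤ j) (hj : j ≤ l)
    (a : HT (id : M → M) e₀ (PS.P b b s) {b} i.v) :
    (sg b h' hj).f ((sg b h hi).f a) = (sg b (h'.trans h) (hi.trans hj)).f a :=
  rst_rst _ _ _ _ _ _ a

theorem sg_self {t : ℝ} {i : Sc} (h : t ≤ t) (hi : i ≤ i)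
    (a : HT (id : M → M) e₀ (PS.P b b t) {b} i.v) : (sg b h hi).f a = a := rst_self _ _ _ a

theorem rO_r {t s : ℝ} {i j : Sc} (h : t ≤ s) (hij : i ≤ j)
    (a : HT (id : M → M) e₀ (H456.PF b s) univ i.v) :
    (rO b t j).f ((r b h hij).f a) = (sg b h hij).f ((rO b s i).f a) :=
  (rst_rst _ _ _ _ _ _ a).trans (rst_rst _ _ _ _ _ _ a).symm

theorem fil (t : ℝ) (i : Sc) : Fil (ph b t i) (L b t i) := H961.fil _ _ _ _ _

theorem hO {t : ℝ} {i : Sc} {q : ℕ} {w : HT (id : M → M) e₀ (H456.PF b t) univ i.v}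
    (hw : w ∈ L b t i q) (hd : w ∈ (D b t i).deg q) : (rO b t i).f w = 0 :=
  eq_zero_of_LF (x₀ := b) (fun _ hx => hx) (rst_LF _ _ _ hw) ((rO b t i).deg hd)

/-- base forms of positive degree vanish on the fibre -/
theorem rO_ph {t : ℝ} {i : Sc} (m : ℕ) (a : Form (DM (univ : Set M) i.v))
    (ha : a ∈ (C M i).deg (m + 1)) : (rO b t i).f ((ph b t i).f a) = 0 := by
  rw [rst_iC]
  have h1 : (rbs (subset_univ ({b} : Set M)) (le_refl i.v)).f a = 0 :=
    DM_eq_zero (x₀ := b) (fun _ hx => hx) (Nat.succ_pos m)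
      ((rbs (subset_univ ({b} : Set M)) (le_refl i.v)).deg ha)
  rw [h1, map_zero]

end PI

end

end Vale.Agent.P216.V994
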