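import Vale.Agent.P216.V994.Wt

/-!
# P216-V, V4 (algebra): the polynomial data

`PD w f N Q P`: `Q_j = ∑ X_i Q_ji`, `P = ∑ X_j P_j`, `P_j = ∑ X_i P_ji` (symmetric) and the
solutions `T`, `V`, `W` of the syzygies which are used for the closed elements `β`, with weights.
-/

open MvPolynomial Finset

namespace Vale.Agent.P216.V994

open Vale.Agent.P216.V706

/-- The polynomial data, for `Q_j = ∑ X_i Q_ji`. -/
structure PD {σ : Type} [Fintype σ] {k : Type*} [Field k] (w : σ → ℕ) (f N : ℕ)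
    (Q1 : σ → σ → MvPolynomial σ k) (P : MvPolynomial σ k) where
  P1 : σ → MvPolynomial σ k
  P2 : σ → σ → MvPolynomial σ k
  T : σ → σ → MvPolynomial σ k
  V : σ → σ → σ → MvPolynomial σ k
  W : σ → σ → σ → MvPolynomial σ k
  hP1 : P = ∑ j, X j * P1 j
  hP2 : ∀ j, P1 j = ∑ i, X i * P2 j i
  symm : ∀ i j, P2 i j = P2 j i
  T_anti : ∀ i j, T j i = -T i j
  hT : ∀ i, ∑ j, pderiv j P * Q1 j i = ∑ l, X l * T i l
  V_anti : ∀ l i j, V l j i = -V l i j
  hV : ∀ i l, ∑ j, Q1 j l * (P2 j i + pderiv j (P1 i)) + T i l = ∑ m, X m * V l i m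
  hW : ∀ i l, ∑ m, (pderiv m (P1 i) * Q1 m l - pderiv m (P1 l) * Q1 m i) + T i l =
    ∑ m, X m * W i l m
  wQ1 : ∀ j i, WH w (w i + f) (w j) (Q1 j i)
  wP1 : ∀ j, WH w (w j) N (P1 j)
  wP2 : ∀ j i, WH w (w j + w i) N (P2 j i)
  wT : ∀ i l, WH w (w i + w l + f) N (T i l)
  wV : ∀ l i m, WH w (w l + w i + w m + f) N (V l i m)
  wW : ∀ i l m, WH w (w i + w l + w m + f) N (W i l m)

section

variable {σ : Type} [Fintype σ] [DecidableEq σ] {k : Type*} [Field k] [CharZero k] {w : σ → ℕ}
  {f N : ℕ} {Q : σ → MvPolynomial σ k} {P : MvPolynomial σ k}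
  {Q1 : σ → σ → MvPolynomial σ k}

omit [Fintype σ] [CharZero k] in
theorem sum_pderiv_X_mul [Fintype σ] (j : σ) (R : σ → MvPolynomial σ k) :
    pderiv j (∑ a, X a * R a) = R j + ∑ a, X a * pderiv j (R a) := by
  rw [map_sum]
  have e : ∀ a, pderiv j (X a * R a) = X a * pderiv j (R a) + if a = j then R a else 0 := by
    intro a
    rw [pderiv_mul, pderiv_X]
    by_cases h : a = j
    · subst h
      rw [Pi.single_eq_same, if_pos rfl]
      ring
    · rw [if_neg h, Pi.single_eq_of_ne h]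
      ring
  rw [sum_congr rfl fun a _ => e a, sum_add_distrib, sum_ite_eq' univ j]
  simp [add_comm]

omit [DecidableEq σ] in
/-- The division `Q_j = ∑ X_i Q_ji`. -/
theorem exists_Q1 (hQw : ∀ j, WH w f (w j) (Q j)) (hQ0 : ∀ j, constantCoeff (Q j) = 0) :
    ∃ Q1 : σ → σ → MvPolynomial σ k, (∀ j, Q j = ∑ i, X i * Q1 j i) ∧
      ∀ j i, WH w (w i + f) (w j) (Q1 j i) := by
  choose Q1 hQ wQ1 using fun j => divXW (hQw j) (hQ0 j)
  exact ⟨Q1, hQ, fun j i => (wQ1 j i).congr (by ring)⟩

omit [DecidableEq σ] [CharZero k] in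
/-- The polynomial data for `P = 0`. -/
noncomputable def PD.zero (wQ1 : ∀ j i, WH w (w i + f) (w j) (Q1 j i)) :
    PD w f N Q1 0 where
  P1 _ := 0
  P2 _ _ := 0
  T _ _ := 0
  V _ _ _ := 0
  W _ _ _ := 0
  hP1 := (sum_eq_zero fun j _ => mul_zero _).symm
  hP2 _ := (sum_eq_zero fun j _ => mul_zero _).symm
  symm _ _ := rfl
  T_anti _ _ := neg_zero.symm
  hT i := by simp
  V_anti _ _ _ := neg_zero.symm
  hV i l := by simp
  hW i l := by simp
  wQ1 := wQ1
  wP1 _ := WH.zero
  wP2 _ _ := WH.zero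
  wT _ _ := WH.zero
  wV _ _ _ := WH.zero
  wW _ _ _ := WH.zero

/-- **The polynomial data exist.** -/
theorem exists_PD (wQ1' : ∀ j i, WH w (w i + f) (w j) (Q1 j i))
    (hPw : WH w 0 N P) (hP0 : constantCoeff P = 0)
    (hP1 : ∀ j, coeff (Finsupp.single j 1) P = 0)
    (hPQ : ∑ j, pderiv j P * ∑ i, X i * Q1 j i = 0) :
    Nonempty (PD w f N Q1 P) := by
  -- `P`
  obtain ⟨R1, R2, h1, h2, h3⟩ := div2 hP0 hP1
  set P1 : σ → MvPolynomial σ k := fun j => fl w (w j) N (R1 j) with hP1d
  set P2 : σ → σ → MvPolynomial σ k := fun j i => fl w (w j + w i) N (R2 j i) with hP2d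
  have wP1 : ∀ j, WH w (w j) N (P1 j) := fun j => fl_WH
  have wP2 : ∀ j i, WH w (w j + w i) N (P2 j i) := fun j i => fl_WH
  have e1 : P = ∑ j, X j * P1 j := by
    have := congrArg (fl w 0 N) h1
    rw [hPw.fl_eq, fl_sum] at this
    rw [this]
    refine sum_congr rfl fun j _ => ?_
    rw [fl_X_mul, zero_add]
  have e2 : ∀ j, P1 j = ∑ i, X i * P2 j i := by
    intro j
    have := congrArg (fl w (w j) N) (h2 j)
    rw [fl_sum] at this
    rw [hP1d]
    simp only
    rw [this]
    exact sum_congr rfl fun i _ => fl_X_mul i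
  have e3 : ∀ i j, P2 i j = P2 j i := fun i j => by
    simp only [hP2d]
    rw [h3 i j, add_comm (w i)]
  -- `T`
  obtain ⟨T, T1, T2, T3⟩ := koszulW (w := w) (N := N) (r₀ := f)
    (fun i => ∑ j, pderiv j P * Q1 j i) (fun i => by
      refine WH.sum fun j _ => ?_
      exact ((hPw.pderiv j).mul (wQ1' j i)).congr (by ring)) (by
      rw [← hPQ]
      simp only [mul_sum]
      rw [sum_comm]
      exact sum_congr rfl fun j _ => sum_congr rfl fun i _ => by ring)
  -- `∑_i X_i M_il = 0`
  have hM : ∀ l, ∑ i, X i * (∑ j, Q1 j l * (P2 j i + pderiv j (P1 i)) + T i l) = 0 := by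
    intro l
    have a1 : ∀ j, ∑ i, X i * (Q1 j l * (P2 j i + pderiv j (P1 i))) =
        pderiv j P * Q1 j l := by
      intro j
      have : pderiv j P = P1 j + ∑ i, X i * pderiv j (P1 i) := by
        conv_lhs => rw [e1]
        exact sum_pderiv_X_mul j P1
      rw [this, e2 j, ← sum_add_distrib, sum_mul]
      exact sum_congr rfl fun i _ => by ring
    have a2 : ∑ i, X i * T i l = -∑ j, pderiv j P * Q1 j l := by
      rw [T2 l, ← sum_neg_distrib]
      refine sum_congr rfl fun i _ => ?_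
      rw [T1 l i]
      ring
    have a3 : ∑ i, X i * (∑ j, Q1 j l * (P2 j i + pderiv j (P1 i)) + T i l) =
        ∑ j, ∑ i, X i * (Q1 j l * (P2 j i + pderiv j (P1 i))) + ∑ i, X i * T i l := by
      rw [sum_comm, ← sum_add_distrib]
      refine sum_congr rfl fun i _ => ?_
      rw [mul_add, mul_sum]
    rw [a3, a2, sum_congr rfl fun j _ => a1 j, add_neg_cancel]
  choose V V1 V2 V3 using fun l => koszulW (w := w) (N := N) (r₀ := w l + f)
    (fun i => ∑ j, Q1 j l * (P2 j i + pderiv j (P1 i)) + T i l) (fun i => by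
      refine WH.add (WH.sum fun j _ => ?_) ((T3 i l).congr (by ring))
      refine ((wQ1' j l).mul (WH.add ((wP2 j i).congr (r' := w i + w j) (N' := N) (by ring))
        ((wP1 i).pderiv j))).congr (by ring)) (hM l)
  -- the constant terms
  have c0 : ∀ i j, constantCoeff (pderiv j (P1 i)) = constantCoeff (P2 i j) := by
    intro i j
    rw [e2 i, sum_pderiv_X_mul, map_add, map_sum]
    simp
  have c1 : ∀ i l, constantCoeff (T i l) =
      ∑ j, (constantCoeff (P2 j l) + constantCoeff (P2 l j)) * constantCoeff (Q1 j i) := by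
    intro i l
    have h4 := congrArg (fun F => constantCoeff (pderiv l F)) (T2 i)
    have h5 : constantCoeff (∑ a, X a * pderiv l (T i a)) = 0 := by
      rw [map_sum]
      exact sum_eq_zero fun a _ => by rw [map_mul, constantCoeff_X, zero_mul]
    rw [sum_pderiv_X_mul, map_add, h5, add_zero] at h4
    rw [← h4, map_sum, map_sum]
    refine sum_congr rfl fun j _ => ?_
    rw [pderiv_mul, map_add, map_mul, map_mul]
    have h6 : pderiv j P = P1 j + ∑ i, X i * pderiv j (P1 i) := by
      conv_lhs => rw [e1]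
      exact sum_pderiv_X_mul j P1
    have h7 : constantCoeff (pderiv j P) = 0 := by
      rw [h6, e2 j, map_add, map_sum, map_sum]
      simp
    have h8 : constantCoeff (pderiv l (pderiv j P)) =
        constantCoeff (P2 j l) + constantCoeff (P2 l j) := by
      rw [h6, map_add, map_add, c0, sum_pderiv_X_mul, map_add, c0, map_sum]
      simp
    rw [h7, h8, zero_mul, add_zero]
  have hW0 : ∀ i l, constantCoeff (∑ m, (pderiv m (P1 i) * Q1 m l - pderiv m (P1 l) * Q1 m i) +
      T i l) = 0 := by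
    intro i l
    have b1 := c1 i l
    have b2 := c1 l i
    rw [T1 i l, map_neg, b1] at b2
    have b3 : ∑ j, (constantCoeff (P2 j l) + constantCoeff (P2 l j)) * constantCoeff (Q1 j i) =
        2 * ∑ j, constantCoeff (P2 l j) * constantCoeff (Q1 j i) := by
      rw [mul_sum]
      exact sum_congr rfl fun j _ => by rw [e3 j l]; ring
    have b4 : ∑ j, (constantCoeff (P2 j i) + constantCoeff (P2 i j)) * constantCoeff (Q1 j l) =
        2 * ∑ j, constantCoeff (P2 i j) * constantCoeff (Q1 j l) := by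
      rw [mul_sum]
      exact sum_congr rfl fun j _ => by rw [e3 j i]; ring
    rw [b3, b4] at b2
    rw [map_add, map_sum, b1, b3]
    have b5 : ∑ m, constantCoeff (pderiv m (P1 i) * Q1 m l - pderiv m (P1 l) * Q1 m i) =
        ∑ j, constantCoeff (P2 i j) * constantCoeff (Q1 j l) -
        ∑ j, constantCoeff (P2 l j) * constantCoeff (Q1 j i) := by
      rw [← sum_sub_distrib]
      refine sum_congr rfl fun j _ => ?_
      rw [map_sub, map_mul, map_mul, c0, c0]
    rw [b5]
    have h2 : (2 : k) ≠ 0 := two_ne_zero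
    have b6 : ∑ j, constantCoeff (P2 i j) * constantCoeff (Q1 j l) =
        -∑ j, constantCoeff (P2 l j) * constantCoeff (Q1 j i) := by
      have : 2 * (∑ j, constantCoeff (P2 i j) * constantCoeff (Q1 j l) +
          ∑ j, constantCoeff (P2 l j) * constantCoeff (Q1 j i)) = 0 := by
        rw [mul_add, ← b2]
        ring
      exact eq_neg_of_add_eq_zero_left ((mul_eq_zero.1 this).resolve_left h2)
    rw [b6]
    ring
  choose W W1 W2 using fun i l => divXW (w := w) (r := w i + w l + f) (N := N)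
    (f := ∑ m, (pderiv m (P1 i) * Q1 m l - pderiv m (P1 l) * Q1 m i) + T i l) (by
      refine WH.add (WH.sum fun m _ => WH.sub ?_ ?_) (T3 i l)
      · exact (((wP1 i).pderiv m).mul (wQ1' m l)).congr (by ring)
      · exact (((wP1 l).pderiv m).mul (wQ1' m i)).congr (by ring)) (hW0 i l)
  exact ⟨{ P1 := P1, P2 := P2, T := T, V := V, W := W, hP1 := e1, hP2 := e2,
           symm := e3, T_anti := T1, hT := T2, V_anti := V1, hV := fun i l => V2 l i, hW := W1,
           wQ1 := wQ1', wP1 := wP1, wP2 := wP2, wT := T3,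
           wV := fun l i m => (V3 l i m).congr (by ring),
           wW := fun i l m => (W2 i l m).congr (by ring) }⟩

end

end Vale.Agent.P216.V994
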