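import Mathlib

/-!
# P216-V: polynomials (characteristic zero): syzygies of the variables, division by the variables

* `koszul`: `∑ X_i S_i = 0` ⇒ `S_i = ∑ X_j T_ij`, `T` antisymmetric.
* `divX`: a polynomial without constant term is `∑ X_j W_j`.
-/

open MvPolynomial Finset

namespace Vale.Agent.P216.V994

variable {σ k : Type*} [Fintype σ] [Field k] [CharZero k]

omit [Fintype σ] [CharZero k] in
theorem hc_X_mul [DecidableEq σ] (i : σ) (n : ℕ) (f : MvPolynomial σ k) :
    homogeneousComponent (n + 1) (X i * f) = X i * homogeneousComponent n f := by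
  ext s
  rw [coeff_homogeneousComponent, coeff_X_mul', coeff_X_mul', coeff_homogeneousComponent]
  by_cases hi : i ∈ s.support
  · rw [if_pos hi, if_pos hi]
    have hs : s = (s - Finsupp.single i 1) + Finsupp.single i 1 := by
      ext j
      rw [Finsupp.add_apply, Finsupp.tsub_apply]
      by_cases hj : i = j
      · subst hj
        rw [Finsupp.single_eq_same]
        have := Finsupp.mem_support_iff.1 hi
        omega
      · rw [Finsupp.single_eq_of_ne (Ne.symm hj)]
        omega
    have hd : s.degree = (s - Finsupp.single i 1).degree + 1 := by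
      conv_lhs => rw [hs]
      rw [map_add, Finsupp.degree_single]
    rw [hd]
    simp
  · rw [if_neg hi, if_neg hi]
    simp

omit [Fintype σ] [CharZero k] in
theorem hc_pderiv_aux (f : MvPolynomial σ k) :
    ∃ N, ∀ M, N ≤ M → f = ∑ n ∈ range M, homogeneousComponent n f := by
  refine ⟨f.totalDegree + 1, fun M hM => ?_⟩
  conv_lhs => rw [← sum_homogeneousComponent f]
  refine sum_subset (range_subset_range.2 hM) fun n _ hn => ?_
  exact homogeneousComponent_eq_zero _ _ (by rw [mem_range] at hn; omega)

theorem euler (n : ℕ) (f : MvPolynomial σ k) :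
    ∑ i, X i * pderiv i (homogeneousComponent n f) = (n : MvPolynomial σ k) *
      homogeneousComponent n f := by
  rw [(homogeneousComponent_isHomogeneous n f).sum_X_mul_pderiv, nsmul_eq_mul]

/-- **Koszul**: the syzygies of the variables. -/
theorem koszul (S : σ → MvPolynomial σ k) (h : ∑ i, X i * S i = 0) :
    ∃ T : σ → σ → MvPolynomial σ k, (∀ i j, T j i = -T i j) ∧ ∀ i, S i = ∑ j, X j * T i j := by
  classical
  have hN : ∃ N, ∀ i, S i = ∑ n ∈ range N, homogeneousComponent n (S i) := by
    choose N hN using fun i => hc_pderiv_aux (S i)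
    exact ⟨univ.sup N, fun i => hN i _ (le_sup (mem_univ i))⟩
  obtain ⟨N, hN⟩ := hN
  set s : ℕ → σ → MvPolynomial σ k := fun n i => homogeneousComponent n (S i) with hs
  have h0 : ∀ n, ∑ i, X i * s n i = 0 := fun n => by
    have := congrArg (homogeneousComponent (n + 1)) h
    rw [map_sum, map_zero] at this
    rw [← this]
    exact sum_congr rfl fun i _ => (hc_X_mul i n (S i)).symm
  refine ⟨fun i j => ∑ n ∈ range N, C ((n + 1 : k)⁻¹) * (pderiv j (s n i) - pderiv i (s n j)),
    fun i j => ?_, fun i => ?_⟩
  · rw [← sum_neg_distrib]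
    exact sum_congr rfl fun n _ => by ring
  · have key : ∀ n, ∑ j, X j * (pderiv j (s n i) - pderiv i (s n j)) =
        (n + 1 : MvPolynomial σ k) * s n i := fun n => by
      have e1 := euler n (S i)
      have e2 : ∑ j, X j * pderiv i (s n j) = -s n i := by
        have := congrArg (pderiv i) (h0 n)
        rw [map_sum, map_zero] at this
        have e3 : ∀ j, pderiv i (X j * s n j) = X j * pderiv i (s n j) +
            (if j = i then s n j else 0) := fun j => by
          rw [pderiv_mul, pderiv_X]
          by_cases hj : j = i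
          · subst hj
            simp [add_comm]
          · rw [if_neg hj, Pi.single_eq_of_ne hj]
            ring
        rw [sum_congr rfl fun j _ => e3 j, sum_add_distrib, sum_ite_eq' univ i] at this
        simp only [mem_univ, if_true] at this
        exact eq_neg_of_add_eq_zero_left this
      simp only [mul_sub, sum_sub_distrib]
      rw [e2]
      change ∑ j, X j * pderiv j (homogeneousComponent n (S i)) - _ = _
      rw [e1]
      ring
    have e4 : ∑ j, X j * ∑ n ∈ range N, C ((n + 1 : k)⁻¹) *
        (pderiv j (s n i) - pderiv i (s n j)) = ∑ n ∈ range N, C ((n + 1 : k)⁻¹) *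
        ∑ j, X j * (pderiv j (s n i) - pderiv i (s n j)) := by
      simp only [mul_sum]
      rw [sum_comm]
      exact sum_congr rfl fun n _ => sum_congr rfl fun j _ => by ring
    rw [e4, hN i]
    refine sum_congr rfl fun n _ => ?_
    rw [key n, ← mul_assoc]
    have : C ((n + 1 : k)⁻¹) * (n + 1 : MvPolynomial σ k) = 1 := by
      have hn : (n + 1 : MvPolynomial σ k) = C (n + 1 : k) := by simp
      rw [hn, ← C_mul, inv_mul_cancel₀ (by exact_mod_cast Nat.succ_ne_zero n), C_1]
    rw [this, one_mul]

/-- Division by the variables. -/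
theorem divX (f : MvPolynomial σ k) (h : constantCoeff f = 0) :
    ∃ W : σ → MvPolynomial σ k, f = ∑ j, X j * W j := by
  obtain ⟨N, hN⟩ := hc_pderiv_aux f
  have hN := hN N le_rfl
  refine ⟨fun j => ∑ n ∈ range N, C ((n : k)⁻¹) * pderiv j (homogeneousComponent n f), ?_⟩
  have e4 : ∑ j, X j * ∑ n ∈ range N, C ((n : k)⁻¹) * pderiv j (homogeneousComponent n f) =
      ∑ n ∈ range N, C ((n : k)⁻¹) * ∑ j, X j * pderiv j (homogeneousComponent n f) := by
    simp only [mul_sum]
    rw [sum_comm]
    exact sum_congr rfl fun n _ => sum_congr rfl fun j _ => by ring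
  rw [e4]
  conv_lhs => rw [hN]
  refine sum_congr rfl fun n _ => ?_
  rw [euler, ← mul_assoc]
  rcases Nat.eq_zero_or_pos n with rfl | hn
  · have : homogeneousComponent 0 f = 0 := by
      rw [homogeneousComponent_zero, ← constantCoeff_eq, h, C_0]
    rw [this, mul_zero]
  · have hn' : (n : MvPolynomial σ k) = C (n : k) := by simp
    have : (n : k) ≠ 0 := by exact_mod_cast hn.ne'
    rw [hn', ← C_mul, inv_mul_cancel₀ this, C_1, one_mul]

end Vale.Agent.P216.V994
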