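import Vale.Agent.P216.V706.Dga
import Vale.Agent.P216.V609.Cdga
import Vale.Agent.P216.V994.Pol

/-!
# P216-V, V4 (algebra): polynomials in even elements: derivative, Taylor expansion
-/

open MvPolynomial Finset

namespace Vale.Agent.P216.V994

open Vale.Agent.P216.V706 Vale.Agent.P216.V609

section

variable {k A : Type*} [Field k] [Ring A] [Algebra k A] (D : Cdga k A)

/-- Finite sums of homogeneous elements of odd degree. -/
def Od : Submodule k A := ⨆ p : ℕ, D.deg (2 * p + 1)

/-- Finite sums of homogeneous elements of even degree. -/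
def Ev : Submodule k A := ⨆ p : ℕ, D.deg (2 * p)

variable {D}

theorem mem_Od {q : ℕ} {a : A} (ha : a ∈ D.deg (2 * q + 1)) : a ∈ Od D :=
  Submodule.mem_iSup_of_mem (p := fun p : ℕ => D.deg (2 * p + 1)) q ha

theorem mem_Ev {q : ℕ} {a : A} (ha : a ∈ D.deg (2 * q)) : a ∈ Ev D :=
  Submodule.mem_iSup_of_mem (p := fun p : ℕ => D.deg (2 * p)) q ha

theorem sg_odd {a : A} (ha : a ∈ Od D) : D.sg a = -a := by
  refine Submodule.iSup_induction (fun p : ℕ => D.deg (2 * p + 1)) (motive := fun a => D.sg a = -a)
    ha (fun p a h => ?_) (by simp) fun a b h1 h2 => by rw [map_add, h1, h2, neg_add]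
  rw [D.sg_deg h, pow_succ, pow_mul]
  simp

theorem sg_even {a : A} (ha : a ∈ Ev D) : D.sg a = a := by
  refine Submodule.iSup_induction (fun p : ℕ => D.deg (2 * p)) (motive := fun a => D.sg a = a)
    ha (fun p a h => ?_) (by simp) fun a b h1 h2 => by rw [map_add, h1, h2]
  rw [D.sg_deg h, pow_mul]
  simp

theorem even_comm {a : A} (ha : a ∈ Ev D) (b : A) : a * b = b * a := by
  refine Submodule.iSup_induction (fun p : ℕ => D.deg (2 * p)) (motive := fun a => a * b = b * a)
    ha (fun p a h => D.comm_even h (even_two_mul p) b) (by simp) fun a b h1 h2 => by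
      rw [add_mul, mul_add, h1, h2]

theorem odd_comm {a b : A} (ha : a ∈ Od D) (hb : b ∈ Od D) : a * b = -(b * a) := by
  refine Submodule.iSup_induction (fun p : ℕ => D.deg (2 * p + 1))
    (motive := fun a => a * b = -(b * a)) ha (fun p a h => ?_) (by simp) fun a b h1 h2 => by
      rw [add_mul, mul_add, h1, h2, neg_add]
  rw [D.comm_odd h (odd_two_mul_add_one p) b, sg_odd hb, neg_mul]

theorem odd_sq [CharZero k] {a : A} (ha : a ∈ Od D) : a * a = 0 := by
  have h1 := odd_comm ha ha
  have h3 : (2 : k) • (a * a) = 0 := by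
    rw [two_smul]
    nth_rewrite 1 [h1]
    exact neg_add_cancel _
  exact (smul_eq_zero.1 h3).resolve_left two_ne_zero

theorem odd_mul_odd {a b : A} (ha : a ∈ Od D) (hb : b ∈ Od D) : a * b ∈ Ev D := by
  refine Submodule.iSup_induction (fun p : ℕ => D.deg (2 * p + 1))
    (motive := fun a => a * b ∈ Ev D) ha (fun p a h => ?_) (by simp) fun a b h1 h2 => by
      rw [add_mul]; exact Submodule.add_mem _ h1 h2
  refine Submodule.iSup_induction (fun p : ℕ => D.deg (2 * p + 1))
    (motive := fun b => a * b ∈ Ev D) hb (fun q b h' => ?_) (by simp) fun a b h1 h2 => by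
      rw [mul_add]; exact Submodule.add_mem _ h1 h2
  have := D.mul_mem h h'
  rw [show 2 * p + 1 + (2 * q + 1) = 2 * (p + q + 1) by ring] at this
  exact mem_Ev this

theorem odd_mul_even {a b : A} (ha : a ∈ Od D) (hb : b ∈ Ev D) : a * b ∈ Od D := by
  refine Submodule.iSup_induction (fun p : ℕ => D.deg (2 * p + 1))
    (motive := fun a => a * b ∈ Od D) ha (fun p a h => ?_) (by simp) fun a b h1 h2 => by
      rw [add_mul]; exact Submodule.add_mem _ h1 h2
  refine Submodule.iSup_induction (fun p : ℕ => D.deg (2 * p))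
    (motive := fun b => a * b ∈ Od D) hb (fun q b h' => ?_) (by simp) fun a b h1 h2 => by
      rw [mul_add]; exact Submodule.add_mem _ h1 h2
  have := D.mul_mem h h'
  rw [show 2 * p + 1 + 2 * q = 2 * (p + q) + 1 by ring] at this
  exact mem_Od this

theorem even_mul_even {a b : A} (ha : a ∈ Ev D) (hb : b ∈ Ev D) : a * b ∈ Ev D := by
  refine Submodule.iSup_induction (fun p : ℕ => D.deg (2 * p))
    (motive := fun a => a * b ∈ Ev D) ha (fun p a h => ?_) (by simp) fun a b h1 h2 => by
      rw [add_mul]; exact Submodule.add_mem _ h1 h2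
  refine Submodule.iSup_induction (fun p : ℕ => D.deg (2 * p))
    (motive := fun b => a * b ∈ Ev D) hb (fun q b h' => ?_) (by simp) fun a b h1 h2 => by
      rw [mul_add]; exact Submodule.add_mem _ h1 h2
  have := D.mul_mem h h'
  rw [show 2 * p + 2 * q = 2 * (p + q) by ring] at this
  exact mem_Ev this

theorem algebraMap_mem_Ev (c : k) : algebraMap k A c ∈ Ev D := by
  rw [Algebra.algebraMap_eq_smul_one]
  exact Submodule.smul_mem _ _ (mem_Ev (q := 0) D.one_mem)

variable {σ : Type} {x x' : σ → Subalgebra.center k A}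

theorem ev_mem_Ev (hx : ∀ j, (x j : A) ∈ Ev D) (f : MvPolynomial σ k) : ev x f ∈ Ev D := by
  induction f using MvPolynomial.induction_on with
  | C a => rw [ev_C]; exact algebraMap_mem_Ev a
  | add p q hp hq => rw [map_add]; exact Submodule.add_mem _ hp hq
  | mul_X p i hp => rw [map_mul, ev_X]; exact even_mul_even hp (hx i)

theorem d_algebraMap (c : k) : D.d (algebraMap k A c) = 0 := by
  rw [Algebra.algebraMap_eq_smul_one, map_smul, D.d_one, smul_zero]

theorem d_ev [Fintype σ] [DecidableEq σ] (hx : ∀ j, (x j : A) ∈ Ev D) (f : MvPolynomial σ k) :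
    D.d (ev x f) = ∑ j, ev x (pderiv j f) * D.d (x j) := by
  induction f using MvPolynomial.induction_on with
  | C a =>
    rw [ev_C, d_algebraMap]
    symm
    exact sum_eq_zero fun j _ => by rw [pderiv_C, map_zero, zero_mul]
  | add p q hp hq =>
    rw [map_add, map_add, hp, hq, ← sum_add_distrib]
    exact sum_congr rfl fun j _ => by rw [map_add, map_add, add_mul]
  | mul_X p i hp =>
    rw [map_mul, D.leib, hp, sg_even (ev_mem_Ev hx p), ev_X, sum_mul]
    have e : ∀ j, ev x (pderiv j (p * X i)) * D.d (x j) =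
        ev x (pderiv j p) * D.d (x j) * x i + if j = i then ev x p * D.d (x i) else 0 := by
      intro j
      rw [pderiv_mul, pderiv_X, map_add, map_mul, map_mul, ev_X, add_mul, mul_assoc,
        ← Subalgebra.mem_center_iff.1 (x i).2 (D.d (x j)), ← mul_assoc]
      congr 1
      by_cases hj : j = i
      · subst hj
        rw [Pi.single_eq_same, map_one, mul_one, if_pos rfl]
      · rw [if_neg hj, Pi.single_eq_of_ne (Ne.symm hj), map_zero, mul_zero, zero_mul]
    rw [sum_congr rfl fun j _ => e j, sum_add_distrib, sum_ite_eq' univ i]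
    simp

theorem mul_ev_congr {y : A} (h : ∀ j, y * x j = y * x' j) (f : MvPolynomial σ k) :
    y * ev x f = y * ev x' f := by
  induction f using MvPolynomial.induction_on with
  | C a => rw [ev_C, ev_C]
  | add p q hp hq => rw [map_add, map_add, mul_add, mul_add, hp, hq]
  | mul_X p i hp =>
    rw [map_mul, map_mul, ev_X, ev_X, ← mul_assoc, hp, mul_assoc, ev_comm x' p, ← mul_assoc, h,
      mul_assoc, ← ev_comm x' p]

theorem taylor [CharZero k] [Fintype σ] [DecidableEq σ] {y : A} (hy : y ∈ Od D) {g : σ → A}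
    (hg : ∀ j, g j ∈ Od D) (h : ∀ j, (x' j : A) = x j + y * g j) (f : MvPolynomial σ k) :
    ev x' f = ev x f + y * ∑ j, g j * ev x (pderiv j f) := by
  have hyy : y * y = 0 := odd_sq hy
  have hygy : ∀ (j : σ) (a : A), y * (g j * (y * a)) = 0 := fun j a => by
    rw [← mul_assoc (g j), odd_comm (hg j) hy, neg_mul, mul_neg, mul_assoc y, ← mul_assoc y,
      hyy, zero_mul, neg_zero]
  induction f using MvPolynomial.induction_on with
  | C a =>
    rw [ev_C, ev_C, sum_eq_zero fun j _ => by rw [pderiv_C, map_zero, mul_zero], mul_zero,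
      add_zero]
  | add p q hp hq =>
    rw [map_add, map_add, hp, hq]
    have e : ∑ j, g j * ev x (pderiv j (p + q)) = ∑ j, g j * ev x (pderiv j p) +
        ∑ j, g j * ev x (pderiv j q) := by
      rw [← sum_add_distrib]
      exact sum_congr rfl fun j _ => by rw [map_add, map_add, mul_add]
    rw [e, mul_add]
    abel
  | mul_X p i hp =>
    rw [map_mul, map_mul, ev_X, ev_X, hp, h]
    have e : ∑ j, g j * ev x (pderiv j (p * X i)) =
        (∑ j, g j * ev x (pderiv j p)) * x i + g i * ev x p := by
      have e1 : ∀ j, g j * ev x (pderiv j (p * X i)) = g j * ev x (pderiv j p) * x i +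
          if j = i then g i * ev x p else 0 := by
        intro j
        rw [pderiv_mul, pderiv_X, map_add, map_mul, map_mul, ev_X, mul_add, mul_assoc]
        congr 1
        by_cases hj : j = i
        · subst hj
          rw [Pi.single_eq_same, map_one, mul_one, if_pos rfl]
        · rw [if_neg hj, Pi.single_eq_of_ne (Ne.symm hj), map_zero, mul_zero, mul_zero]
      rw [sum_congr rfl fun j _ => e1 j, sum_add_distrib, sum_ite_eq' univ i, sum_mul]
      simp
    have e0 : (y * ∑ j, g j * ev x (pderiv j p)) * (y * g i) = 0 := by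
      rw [mul_assoc, sum_mul, mul_sum]
      refine sum_eq_zero fun j _ => ?_
      rw [mul_assoc (g j), ← mul_assoc (ev x _) y, ev_comm x _ y, mul_assoc y]
      exact hygy j _
    rw [e, add_mul, mul_add, mul_add, mul_add, e0, add_zero, ← mul_assoc (ev x p) y,
      ev_comm x p y, mul_assoc y (ev x p), ev_comm x p (g i), ← mul_assoc y _ (x i : A)]
    abel

end

end Vale.Agent.P216.V994
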