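import Vale.Agent.P216.V994.Sp

/-!
# P216-V, V4 (algebra): weights

`WH w r N f`: all monomials `s` of `f` satisfy `weight s + r = N`.  `fl w r N f`: the part of `f`
with this property.  Weighted versions of `koszul`, `divX`.
-/

open MvPolynomial Finset

namespace Vale.Agent.P216.V994

open Vale.Agent.P216.V706

variable {σ : Type} {k : Type*} [Field k] {w : σ → ℕ} {r r' N N' : ℕ}
  {f g : MvPolynomial σ k}

/-- weight `N - r` -/
def WH (w : σ → ℕ) (r N : ℕ) (f : MvPolynomial σ k) : Prop :=
  ∀ s, coeff s f ≠ 0 → Finsupp.weight w s + r = N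

theorem WH.zero : WH w r N (0 : MvPolynomial σ k) := fun s h => absurd (coeff_zero s) h

theorem WH.add (hf : WH w r N f) (hg : WH w r N g) : WH w r N (f + g) := by
  intro s hs
  by_cases h : coeff s f = 0
  · refine hg s fun h' => hs ?_
    rw [coeff_add, h, h', add_zero]
  · exact hf s h

theorem WH.neg (hf : WH w r N f) : WH w r N (-f) := fun s hs => hf s fun h => hs (by
  rw [coeff_neg, h, neg_zero])

theorem WH.sub (hf : WH w r N f) (hg : WH w r N g) : WH w r N (f - g) := by
  rw [sub_eq_add_neg]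
  exact hf.add hg.neg

theorem WH.sum {ι : Type*} {s : Finset ι} {F : ι → MvPolynomial σ k}
    (h : ∀ i ∈ s, WH w r N (F i)) : WH w r N (∑ i ∈ s, F i) := by
  classical
  induction s using Finset.induction_on with
  | empty => rw [sum_empty]; exact WH.zero
  | insert i s hi ih =>
    rw [sum_insert hi]
    exact (h i (mem_insert_self i s)).add (ih fun j hj => h j (mem_insert_of_mem hj))

theorem WH.mul (hf : WH w r N f) (hg : WH w r' N' g) : WH w (r + r') (N + N') (f * g) := by
  classical
  intro s hs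
  rw [coeff_mul] at hs
  obtain ⟨⟨a, b⟩, hab, h⟩ := exists_ne_zero_of_sum_ne_zero hs
  rw [HasAntidiagonal.mem_antidiagonal] at hab
  have h1 := hf a (left_ne_zero_of_mul h)
  have h2 := hg b (right_ne_zero_of_mul h)
  rw [← hab, map_add]
  simp only at h1 h2 ⊢
  omega

theorem WH.congr (hf : WH w r N f) (h : r + N' = r' + N) : WH w r' N' f := fun s hs => by
  have := hf s hs
  omega

theorem WH.pderiv (hf : WH w r N f) (j : σ) : WH w (r + w j) N (pderiv j f) := by
  intro s hs
  rw [coeff_pderiv] at hs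
  have := hf _ (left_ne_zero_of_mul hs)
  rw [map_add, Finsupp.weight_single, one_smul] at this
  omega

theorem WH_X (j : σ) : WH w 0 (w j) (X j : MvPolynomial σ k) := by
  classical
  intro s hs
  rw [coeff_X] at hs
  by_cases h : Finsupp.single j 1 = s
  · rw [← h, Finsupp.weight_single, one_smul, add_zero]
  · rw [if_neg h] at hs
    exact absurd rfl hs

theorem WH_of_hom {n : ℕ} (h : IsWeightedHomogeneous w f n) : WH w 0 n f := fun s hs => by
  rw [h hs, add_zero]

/-- the part of weight `N - r` -/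
noncomputable def fl (w : σ → ℕ) (r N : ℕ) (f : MvPolynomial σ k) : MvPolynomial σ k :=
  if r ≤ N then weightedHomogeneousComponent w (N - r) f else 0

theorem coeff_fl (s : σ →₀ ℕ) :
    coeff s (fl w r N f) = if Finsupp.weight w s + r = N then coeff s f else 0 := by
  rw [fl]
  by_cases h : r ≤ N
  · rw [if_pos h, coeff_weightedHomogeneousComponent]
    exact if_congr (by omega) rfl rfl
  · rw [if_neg h, coeff_zero, if_neg (by omega)]

theorem fl_WH : WH w r N (fl w r N f) := fun s hs => by
  rw [coeff_fl] at hs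
  by_contra h
  rw [if_neg h] at hs
  exact hs rfl

theorem WH.fl_eq (hf : WH w r N f) : fl w r N f = f := by
  ext s
  rw [coeff_fl]
  by_cases h : coeff s f = 0
  · rw [h, ite_self]
  · rw [if_pos (hf s h)]

theorem fl_add : fl w r N (f + g) = fl w r N f + fl w r N g := by
  ext s
  rw [coeff_add, coeff_fl, coeff_fl, coeff_fl, coeff_add]
  split_ifs
  · rfl
  · rw [add_zero]

theorem fl_neg : fl w r N (-f) = -fl w r N f := by
  ext s
  rw [coeff_neg, coeff_fl, coeff_fl, coeff_neg]
  split_ifs
  · rfl
  · rw [neg_zero]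

theorem fl_zero : fl w r N (0 : MvPolynomial σ k) = 0 := by
  ext s
  rw [coeff_fl, coeff_zero, ite_self]

theorem fl_sum {ι : Type*} (s : Finset ι) (F : ι → MvPolynomial σ k) :
    fl w r N (∑ i ∈ s, F i) = ∑ i ∈ s, fl w r N (F i) := by
  classical
  induction s using Finset.induction_on with
  | empty => rw [sum_empty, sum_empty, fl_zero]
  | insert i s hi ih => rw [sum_insert hi, sum_insert hi, fl_add, ih]

theorem fl_X_mul (i : σ) : fl w r N (X i * f) = X i * fl w (r + w i) N f := by
  classical
  ext s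
  rw [coeff_fl, coeff_X_mul', coeff_X_mul', coeff_fl]
  by_cases hi : i ∈ s.support
  · rw [if_pos hi, if_pos hi]
    have hs : s = (s - Finsupp.single i 1) + Finsupp.single i 1 := by
      ext j
      rw [Finsupp.add_apply, Finsupp.tsub_apply]
      by_cases hj : i = j
      · subst hj
        rw [Finsupp.single_eq_same]
        have := Finsupp.mem_support_iff.1 hi
        omega
      · rw [Finsupp.single_eq_of_ne (Ne.symm hj)]
        omega
    have hd : Finsupp.weight w s = Finsupp.weight w (s - Finsupp.single i 1) + w i := by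
      conv_lhs => rw [hs]
      rw [map_add, Finsupp.weight_single, one_smul]
    rw [hd]
    exact if_congr (by omega) rfl rfl
  · rw [if_neg hi, if_neg hi, ite_self]

variable [Fintype σ] [CharZero k]

/-- **Koszul**, weighted. -/
theorem koszulW {r₀ : ℕ} (S : σ → MvPolynomial σ k) (hS : ∀ i, WH w (w i + r₀) N (S i))
    (h : ∑ i, X i * S i = 0) : ∃ T : σ → σ → MvPolynomial σ k, (∀ i j, T j i = -T i j) ∧
      (∀ i, S i = ∑ j, X j * T i j) ∧ ∀ i j, WH w (w i + w j + r₀) N (T i j) := by
  obtain ⟨T, h1, h2⟩ := koszul S h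
  refine ⟨fun i j => fl w (w i + w j + r₀) N (T i j), fun i j => ?_, fun i => ?_,
    fun i j => fl_WH⟩
  · show fl w (w j + w i + r₀) N (T j i) = _
    rw [← fl_neg, ← h1 i j, add_comm (w j) (w i)]
  · have := congrArg (fl w (w i + r₀) N) (h2 i)
    rw [(hS i).fl_eq, fl_sum] at this
    rw [this]
    refine sum_congr rfl fun j _ => ?_
    rw [fl_X_mul, show w i + r₀ + w j = w i + w j + r₀ by ring]

/-- Division by the variables, weighted. -/
theorem divXW (hf : WH w r N f) (h : constantCoeff f = 0) :
    ∃ W : σ → MvPolynomial σ k, f = ∑ j, X j * W j ∧ ∀ j, WH w (r + w j) N (W j) := by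
  obtain ⟨W, hW⟩ := divX f h
  refine ⟨fun j => fl w (r + w j) N (W j), ?_, fun j => fl_WH⟩
  have := congrArg (fl w r N) hW
  rw [hf.fl_eq, fl_sum] at this
  rw [this]
  exact sum_congr rfl fun j _ => fl_X_mul j

omit [Fintype σ] [CharZero k] in
theorem pderiv_comm' (i j : σ) (f : MvPolynomial σ k) :
    MvPolynomial.pderiv i (MvPolynomial.pderiv j f) =
      MvPolynomial.pderiv j (MvPolynomial.pderiv i f) := by
  classical
  ext s
  rw [coeff_pderiv, coeff_pderiv, coeff_pderiv, coeff_pderiv,
    show s + Finsupp.single i 1 + Finsupp.single j 1 =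
      s + Finsupp.single j 1 + Finsupp.single i 1 from add_right_comm _ _ _]
  by_cases h : i = j
  · subst h
    rfl
  · rw [Finsupp.add_apply, Finsupp.add_apply, Finsupp.single_eq_of_ne (Ne.symm h),
      Finsupp.single_eq_of_ne h]
    ring

/-- **Second order division**, symmetric. -/
theorem div2 (h0 : constantCoeff f = 0) (h1 : ∀ j, coeff (Finsupp.single j 1) f = 0) :
    ∃ (P1 : σ → MvPolynomial σ k) (P2 : σ → σ → MvPolynomial σ k), f = ∑ j, X j * P1 j ∧
      (∀ j, P1 j = ∑ i, X i * P2 j i) ∧ ∀ i j, P2 i j = P2 j i := by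
  classical
  obtain ⟨N, hN⟩ := hc_pderiv_aux f
  have hN := hN (N + 2) (by omega)
  set F : ℕ → MvPolynomial σ k := fun n => homogeneousComponent (n + 2) f with hF
  have hsum : f = ∑ n ∈ range N, F n := by
    rw [sum_range_succ', sum_range_succ'] at hN
    have e0 : homogeneousComponent 0 f = 0 := by
      rw [homogeneousComponent_zero, ← constantCoeff_eq, h0, C_0]
    have e1 : homogeneousComponent (0 + 1) f = 0 := by
      ext s
      rw [coeff_homogeneousComponent, coeff_zero]
      split_ifs with hs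
      · rw [zero_add] at hs
        have hs' : s ∈ Set.range (fun a : σ => Finsupp.single a 1) := by
          rw [Finsupp.range_single_one]
          exact hs
        obtain ⟨j, rfl⟩ := hs'
        exact h1 j
      · rfl
    rw [e0, e1, add_zero, add_zero] at hN
    exact hN
  have hc : ∀ n : ℕ, C ((n + 1 : k)⁻¹) * (n + 1 : MvPolynomial σ k) = 1 := fun n => by
    have hn : (n + 1 : MvPolynomial σ k) = C (n + 1 : k) := by simp
    rw [hn, ← C_mul, inv_mul_cancel₀ (by exact_mod_cast Nat.succ_ne_zero n), C_1]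
  refine ⟨fun j => ∑ n ∈ range N, C (((n + 1 : ℕ) + 1 : k)⁻¹) * MvPolynomial.pderiv j (F n),
    fun j i => ∑ n ∈ range N, C (((n + 1 : ℕ) + 1 : k)⁻¹) * (C ((n + 1 : k)⁻¹) *
      MvPolynomial.pderiv i (MvPolynomial.pderiv j (F n))), ?_, fun j => ?_, fun i j => ?_⟩
  · conv_lhs => rw [hsum]
    simp only [mul_sum]
    rw [sum_comm]
    refine sum_congr rfl fun n _ => ?_
    have e : ∑ j, X j * MvPolynomial.pderiv j (F n) = ((n + 1 : ℕ) + 1 : MvPolynomial σ k) * F n := by
      rw [(homogeneousComponent_isHomogeneous (n + 2) f).sum_X_mul_pderiv, nsmul_eq_mul]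
      push_cast
      ring
    have : ∑ j, X j * (C (((n + 1 : ℕ) + 1 : k)⁻¹) * MvPolynomial.pderiv j (F n)) =
        C (((n + 1 : ℕ) + 1 : k)⁻¹) * ∑ j, X j * MvPolynomial.pderiv j (F n) := by
      rw [mul_sum]
      exact sum_congr rfl fun j _ => by ring
    rw [this, e, ← mul_assoc, hc (n + 1), one_mul]
  · simp only [mul_sum]
    rw [sum_comm]
    refine sum_congr rfl fun n _ => ?_
    have e : ∑ i, X i * MvPolynomial.pderiv i (MvPolynomial.pderiv j (F n)) =
        (n + 1 : MvPolynomial σ k) * MvPolynomial.pderiv j (F n) := by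
      have h := (homogeneousComponent_isHomogeneous (n + 2) f).pderiv (i := j)
      rw [h.sum_X_mul_pderiv, nsmul_eq_mul, show n + 2 - 1 = n + 1 by omega]
      push_cast
      ring
    have : ∑ i, X i * (C (((n + 1 : ℕ) + 1 : k)⁻¹) * (C ((n + 1 : k)⁻¹) *
        MvPolynomial.pderiv i (MvPolynomial.pderiv j (F n)))) =
        C (((n + 1 : ℕ) + 1 : k)⁻¹) * (C ((n + 1 : k)⁻¹) *
          ∑ i, X i * MvPolynomial.pderiv i (MvPolynomial.pderiv j (F n))) := by
      rw [mul_sum, mul_sum]
      exact sum_congr rfl fun j _ => by ring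
    rw [this, e, ← mul_assoc (C ((n + 1 : k)⁻¹)), hc n, one_mul]
  · exact sum_congr rfl fun n _ => by rw [pderiv_comm']

end Vale.Agent.P216.V994
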